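import Vale.Agent.P092.SR.Defs

/-!
Block B-GLUE-TRI (helper839): the model `VV`, `RR₁`, `RR₂` on `ℓ²(Λ × Λ)` is a `Tri`; the flip.
-/

set_option linter.all false

open scoped InnerProductSpace
open Filter Topology ContinuousLinearMap

namespace Vale.Agent.P092.H839

open Vale.Agent.P092.H160 Vale.Agent.P092.SR

section gen

variable {X Y : Type}

theorem bar_tens (A : Ell2 X →L[ℂ] Ell2 X) (B : Ell2 Y →L[ℂ] Ell2 Y) :
    bar (tens A B) = tens (bar A) (bar B) := by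
  apply op_ext
  rintro ⟨x, y⟩
  rw [bar_dl, tens_dl, tens_dl, cj_tv, bar_dl, bar_dl]

theorem bar_bar (A : Ell2 X →L[ℂ] Ell2 X) : bar (bar A) = A := by
  ext1 v; rw [bar_apply, bar_apply, cj_cj, cj_cj]

theorem bar_smul (c : ℂ) (A : Ell2 X →L[ℂ] Ell2 X) : bar (c • A) = (starRingEnd ℂ) c • bar A := by
  ext1 v
  rw [bar_apply, smul_apply, smul_apply, cj_smul, bar_apply]

theorem bar_smul_one (c : ℂ) : bar (c • (1 : Ell2 X →L[ℂ] Ell2 X)) = (starRingEnd ℂ) c • 1 := by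
  rw [bar_smul, bar_one]

theorem rei_mul_rei (e : X ≃ X) (f : X ≃ X) :
    (rei f : Ell2 X →L[ℂ] Ell2 X) * rei e = rei (e.trans f) := by
  ext1 v; exact rei_rei e f v

/-- An operator commutes with `1 ⊗ y` iff its slices commute with `y`. -/
noncomputable def slice (T : Ell2 (X × Y) →L[ℂ] Ell2 (X × Y)) (u v : Ell2 X) :
    Ell2 Y →L[ℂ] Ell2 Y := adjoint (tvr u) ∘L T ∘L tvr v

theorem inner_slice (T : Ell2 (X × Y) →L[ℂ] Ell2 (X × Y)) (u v : Ell2 X) (a b : Ell2 Y) :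
    ⟪a, slice T u v b⟫_ℂ = ⟪tv u a, T (tv v b)⟫_ℂ := by
  rw [slice, comp_apply, comp_apply, adjoint_inner_right, tvr_apply, tvr_apply]

theorem tv_total {T S : Ell2 (X × Y) →L[ℂ] Ell2 (X × Y)}
    (h : ∀ (u v : Ell2 X) (a b : Ell2 Y), ⟪tv u a, T (tv v b)⟫_ℂ = ⟪tv u a, S (tv v b)⟫_ℂ) :
    T = S := by
  apply op_ext
  rintro ⟨x, y⟩
  apply ext_inner_dl
  rintro ⟨x', y'⟩
  rw [← inner_dl, ← inner_dl, dl_prod, dl_prod]
  exact h _ _ _ _

theorem tens_one_tv (y : Ell2 Y →L[ℂ] Ell2 Y) (u : Ell2 X) (a : Ell2 Y) :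
    tens (1 : Ell2 X →L[ℂ] Ell2 X) y (tv u a) = tv u (y a) := by
  rw [tens_tv]; rfl

theorem slice_comm_iff (T : Ell2 (X × Y) →L[ℂ] Ell2 (X × Y)) (y : Ell2 Y →L[ℂ] Ell2 Y) :
    T * tens 1 y = tens 1 y * T ↔ ∀ u v : Ell2 X, slice T u v * y = y * slice T u v := by
  constructor
  · intro h u v
    refine ContinuousLinearMap.ext fun b => ext_inner_left ℂ fun a => ?_
    rw [mul_ap, mul_ap, inner_slice, ← tens_one_tv, ← mul_ap, h, mul_ap]
    rw [← adjoint_inner_left (A := y), ]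
    rw [← adjoint_inner_left (A := tens 1 y), adjoint_tens]
    have h1 : adjoint (1 : Ell2 X →L[ℂ] Ell2 X) = 1 := by
      rw [← star_eq_adjoint, star_one]
    rw [h1, tens_one_tv, inner_slice]
  · intro h
    refine tv_total fun u v a b => ?_
    have h1 : adjoint (1 : Ell2 X →L[ℂ] Ell2 X) = 1 := by
      rw [← star_eq_adjoint, star_one]
    rw [mul_ap, tens_one_tv, ← inner_slice, mul_ap, ← adjoint_inner_left (A := tens 1 y),
      adjoint_tens, h1, tens_one_tv, ← inner_slice, adjoint_inner_left, ← mul_ap, ← mul_ap, h]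

end gen

/-! ### `JJ` and `Del` -/

section jj

variable {Λ : Type} [Group Λ]

theorem adjoint_JJ (x : Ell2 Λ →L[ℂ] Ell2 Λ) : adjoint (JJ x) = JJ (adjoint x) := by
  rw [JJ, JJ, ← star_eq_adjoint, star_mul, star_mul, star_eq_adjoint (bar x), adjoint_bar,
    star_eq_adjoint (rei _), adjoint_rei, mul_assoc]
  rfl

theorem JJ_JJ (x : Ell2 Λ →L[ℂ] Ell2 Λ) : JJ (JJ x) = x := by
  rw [JJ, JJ, bar_mul, bar_mul, bar_rei, bar_bar]
  rw [← mul_assoc, ← mul_assoc, rei_inv_mul, one_mul, mul_assoc,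
    rei_inv_mul, mul_one]

theorem JJ_rho (t : Λ) : JJ (rho t) = lam t := by
  rw [JJ, bar_rho, rho, rei_mul_rei, rei_mul_rei, lam]
  congr 1
  ext x
  simp

theorem JJ_lam (t : Λ) : JJ (lam t) = rho t := by
  rw [← JJ_rho, JJ_JJ]

theorem JJ_apply (x : Ell2 Λ →L[ℂ] Ell2 Λ) (v : Ell2 Λ) :
    JJ x v = rei (Equiv.inv Λ) (cj (x (cj (rei (Equiv.inv Λ) v)))) := rfl

theorem JJ_cmm {x : Ell2 Λ →L[ℂ] Ell2 Λ} (h : ∀ t, x * rho t = rho t * x) (t : Λ) :
    JJ x * lam t = lam t * JJ x := by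
  rw [← JJ_rho, ← JJ_mul, h t, JJ_mul]

theorem Del_adjoint (x : Ell2 Λ →L[ℂ] Ell2 Λ) : adjoint (Del x) = Del (adjoint x) := by
  have h1 : adjoint (1 : Ell2 Λ →L[ℂ] Ell2 Λ) = 1 := by rw [← star_eq_adjoint, star_one]
  rw [Del, Del, ← star_eq_adjoint, star_mul, star_mul, star_eq_adjoint (tens x 1), adjoint_tens,
    h1, star_eq_adjoint (rei _), adjoint_rei, star_eq_adjoint (rei _), adjoint_rei, mul_assoc]
  rfl

theorem eW_rho (s t : Λ) :
    rei (eW Λ) * rho (s, t) = tens (rho s) (lam s * rho t) * rei (eW Λ) := by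
  apply op_ext
  rintro ⟨a, b⟩
  rw [mul_ap, mul_ap, rho_dl, rei_dl, rei_dl]
  change dl ((a * s⁻¹), ((a * s⁻¹)⁻¹ * (b * t⁻¹))) = tens (rho s) (lam s * rho t) (dl (a, a⁻¹ * b))
  rw [tens_dl, rho_dl, mul_ap, rho_dl, lam_dl, ← dl_prod]
  congr 2
  group

theorem eW_symm_rho (s t : Λ) :
    rei (eW Λ).symm * tens (rho s) (lam s * rho t) = rho (s, t) * rei (eW Λ).symm := by
  have h := eW_rho s t
  calc rei (eW Λ).symm * tens (rho s) (lam s * rho t)
      = rei (eW Λ).symm * ((tens (rho s) (lam s * rho t) * rei (eW Λ)) * rei (eW Λ).symm) := by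
        rw [mul_assoc, rei_eW_mul, mul_one]
    _ = rei (eW Λ).symm * ((rei (eW Λ) * rho (s, t)) * rei (eW Λ).symm) := by rw [h]
    _ = rho (s, t) * rei (eW Λ).symm := by
        rw [← mul_assoc, ← mul_assoc, rei_eW_symm_mul, one_mul]

theorem Del_rho {x : Ell2 Λ →L[ℂ] Ell2 Λ} (h : ∀ t, x * rho t = rho t * x) (s t : Λ) :
    Del x * rho (s, t) = rho (s, t) * Del x := by
  rw [Del]
  calc rei (eW Λ).symm * (tens x 1 * rei (eW Λ)) * rho (s, t)
      = rei (eW Λ).symm * (tens x 1 * (rei (eW Λ) * rho (s, t))) := by simp only [mul_assoc]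
    _ = rei (eW Λ).symm * (tens x 1 * tens (rho s) (lam s * rho t) * rei (eW Λ)) := by
        rw [eW_rho]; simp only [mul_assoc]
    _ = rei (eW Λ).symm * (tens (rho s) (lam s * rho t) * tens x 1 * rei (eW Λ)) := by
        rw [← tens_mul, ← tens_mul, one_mul, mul_one, h s]
    _ = (rei (eW Λ).symm * tens (rho s) (lam s * rho t)) * (tens x 1 * rei (eW Λ)) := by
        simp only [mul_assoc]
    _ = rho (s, t) * (rei (eW Λ).symm * (tens x 1 * rei (eW Λ))) := by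
        rw [eW_symm_rho]; simp only [mul_assoc]

open Classical in
theorem Del_dl (x : Ell2 Λ →L[ℂ] Ell2 Λ) (p : Λ × Λ) : Del x (dl 1) p =
    if p.1 = p.2 then x (dl 1) p.1 else 0 := by
  classical
  rw [Del, mul_ap, mul_ap, rei_dl, rei_apply]
  change tens x 1 (dl ((1 : Λ), (1 : Λ)⁻¹ * 1)) (eW Λ p) = _
  rw [tens_dl, tv_apply]
  change x (dl 1) p.1 * (dl ((1 : Λ)⁻¹ * 1) : Ell2 Λ) (p.1⁻¹ * p.2) = _
  rw [dl_apply]
  have h1 : (p.1⁻¹ * p.2 = (1 : Λ)⁻¹ * 1) ↔ p.1 = p.2 := by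
    rw [inv_one, one_mul, inv_mul_eq_one]
  by_cases h : p.1 = p.2
  · rw [if_pos (h1.2 h), if_pos h, mul_one]
  · rw [if_neg (fun h2 => h (h1.1 h2)), if_neg h, mul_zero]

/-- the swap of the legs -/
noncomputable def swp (x : Ell2 (Λ × Λ) →L[ℂ] Ell2 (Λ × Λ)) : Ell2 (Λ × Λ) →L[ℂ] Ell2 (Λ × Λ) :=
  sw * (x * sw)

theorem sw_sw : (sw : Ell2 (Λ × Λ) →L[ℂ] Ell2 (Λ × Λ)) * sw = 1 := by
  rw [sw, rei_mul_rei]
  ext1 v
  exact rei_refl v

theorem swp_mul (x y : Ell2 (Λ × Λ) →L[ℂ] Ell2 (Λ × Λ)) : swp (x * y) = swp x * swp y := by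
  have : swp x * swp y = sw * (x * ((sw * sw) * (y * sw))) := by
    simp only [swp, mul_assoc]
  rw [this, sw_sw, one_mul, swp]
  simp only [mul_assoc]

theorem swp_swp (x : Ell2 (Λ × Λ) →L[ℂ] Ell2 (Λ × Λ)) : swp (swp x) = x := by
  have : swp (swp x) = (sw * sw) * (x * (sw * sw)) := by simp only [swp, mul_assoc]
  rw [this, sw_sw, one_mul, mul_one]

theorem swp_tens (x y : Ell2 Λ →L[ℂ] Ell2 Λ) : swp (tens x y) = tens y x := by
  apply op_ext
  rintro ⟨a, b⟩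
  rw [swp, mul_ap, mul_ap, dl_prod, sw_tv, tens_tv, sw_tv, tens_tv]

theorem swp_rho (s t : Λ) : swp (rho (s, t)) = rho (t, s) := by
  rw [← tens_rho, swp_tens, tens_rho]

theorem swp_Del {x : Ell2 Λ →L[ℂ] Ell2 Λ} (h : ∀ t, x * rho t = rho t * x) :
    swp (Del x) = Del x := by
  have hc : Cmm (rhoH (G := Λ × Λ)) (Del x) := fun g => Del_rho h g.1 g.2
  have hc' : Cmm (rhoH (G := Λ × Λ)) (swp (Del x)) := by
    rintro ⟨s, t⟩
    change swp (Del x) * rho (s, t) = rho (s, t) * swp (Del x)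
    rw [← swp_rho t s, ← swp_mul, Del_rho h, swp_mul]
  refine regRep_rho.ext_cmm hc' hc ?_
  apply ext_inner_dl
  rintro ⟨a, b⟩
  rw [swp, mul_ap, mul_ap, sw_apply]
  have h1 : sw (dl (1 : Λ × Λ)) = (dl (1 : Λ × Λ) : Ell2 (Λ × Λ)) := by
    rw [sw, rei_dl]; rfl
  rw [h1, Del_dl, Del_dl]
  by_cases hab : a = b
  · subst hab; simp
  · have hba : ¬ (b = a) := fun h => hab h.symm
    simp [hab, hba]

end jj

/-! ### The frame -/

section frame

variable {Γ Λ : Type} [Group Γ] [Group Λ] {α : Γ →* (Ell2 Λ →L[ℂ] Ell2 Λ)}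

/-- `g ↦ J α(g) J` -/
noncomputable def Ja (α : Γ →* (Ell2 Λ →L[ℂ] Ell2 Λ)) : Γ →* (Ell2 Λ →L[ℂ] Ell2 Λ) where
  toFun g := JJ (α g)
  map_one' := by rw [map_one, JJ_one]
  map_mul' g h := by rw [map_mul, JJ_mul]

@[simp] theorem Ja_apply (g : Γ) : Ja α g = JJ (α g) := rfl

theorem JJ_dl (x : Ell2 Λ →L[ℂ] Ell2 Λ) (s : Λ) : JJ x (dl 1) s = (starRingEnd ℂ) (x (dl 1) s⁻¹) := by
  rw [JJ_apply, rei_apply, rei_dl, cj_dl, cj_apply]
  change (starRingEnd ℂ) (x (dl (1 : Λ)⁻¹) s⁻¹) = _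
  rw [inv_one]

theorem regRep_Ja (hα : Frame α) : RegRep (Ja α) (dl 1) where
  adj g := by rw [Ja_apply, Ja_apply, adjoint_JJ, hα.reg.adj]
  norm_one := norm_dl 1
  inner_zero g hg := by
    have h := hα.reg.inner_zero g hg
    rw [inner_dl] at h
    rw [inner_dl, Ja_apply, JJ_dl, inv_one, h, map_zero]
  total v hv := by
    have h1 : cj (rei (Equiv.inv Λ) v) = 0 := by
      refine hα.reg.total _ fun g => ?_
      have h2 := hv g
      rw [Ja_apply, JJ_apply, rei_dl, cj_dl] at h2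
      have h3 : (Equiv.inv Λ) (1 : Λ) = 1 := inv_one
      rw [h3] at h2
      have h4 : ⟪cj (α g (dl 1)), rei (Equiv.inv Λ) v⟫_ℂ = 0 := by
        rw [← h2, ← inner_rei (Equiv.inv Λ), rei_rei]
        have h5 : (Equiv.inv Λ).trans (Equiv.inv Λ) = Equiv.refl Λ := by ext x; simp
        rw [h5, rei_refl]
      rw [← cj_cj (α g (dl 1)), inner_cj, ← inner_conj_symm, h4, map_zero]
    have h2 : rei (Equiv.inv Λ) v = 0 := by
      rw [← cj_cj (rei (Equiv.inv Λ) v), h1, ← norm_eq_zero, norm_cj, norm_zero]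
    rw [← norm_eq_zero, ← norm_rei (Equiv.inv Λ), h2, norm_zero]

theorem alpha_JJ (hα : Frame α) (g h : Γ) : α g * JJ (α h) = JJ (α h) * α g := by
  refine RegRep.commute regRep_lam regRep_rho (fun a b => (rho_lam b a).symm) ?_ ?_
  · exact fun s => hα.comm g s
  · exact fun s => JJ_cmm (fun t => hα.comm h t) s

theorem adj_VV (hα : Frame α) (g : Γ) : adjoint (VV α g) = VV α g⁻¹ := by
  change adjoint (Del (α g)) = Del (α g⁻¹)
  rw [Del_adjoint, hα.reg.adj]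

theorem adj_RR₁ (hα : Frame α) (g : Γ) : adjoint (RR₁ α g) = RR₁ α g⁻¹ := by
  have h1 : adjoint (1 : Ell2 Λ →L[ℂ] Ell2 Λ) = 1 := by rw [← star_eq_adjoint, star_one]
  change adjoint (tens (JJ (α g)) 1) = tens (JJ (α g⁻¹)) 1
  rw [adjoint_tens, adjoint_JJ, hα.reg.adj, h1]

theorem adj_RR₂ (hα : Frame α) (g : Γ) : adjoint (RR₂ α g) = RR₂ α g⁻¹ := by
  have h1 : adjoint (1 : Ell2 Λ →L[ℂ] Ell2 Λ) = 1 := by rw [← star_eq_adjoint, star_one]
  change adjoint (tens 1 (JJ (α g))) = tens 1 (JJ (α g⁻¹))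
  rw [adjoint_tens, adjoint_JJ, hα.reg.adj, h1]

theorem VV_rho (hα : Frame α) (g : Γ) (s t : Λ) :
    VV α g * rho (s, t) = rho (s, t) * VV α g := Del_rho (fun t => hα.comm g t) s t

/-- the representation `R₁ × R₂` of `Γ × Γ` -/
noncomputable def RR (α : Γ →* (Ell2 Λ →L[ℂ] Ell2 Λ)) :
    Γ × Γ →* (Ell2 (Λ × Λ) →L[ℂ] Ell2 (Λ × Λ)) where
  toFun p := tens (JJ (α p.1)) (JJ (α p.2))
  map_one' := by
    change tens (JJ (α 1)) (JJ (α 1)) = 1
    rw [map_one, JJ_one, tens_one]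
  map_mul' p q := by
    change tens (JJ (α (p.1 * q.1))) (JJ (α (p.2 * q.2))) = _
    rw [map_mul, map_mul, JJ_mul, JJ_mul, tens_mul]

theorem RR_apply (g h : Γ) : RR α (g, h) = tens (JJ (α g)) (JJ (α h)) := rfl

theorem RR_eq (g h : Γ) : RR α (g, h) = RR₁ α g * RR₂ α h := by
  change tens (JJ (α g)) (JJ (α h)) = tens (JJ (α g)) 1 * tens 1 (JJ (α h))
  rw [← tens_mul, one_mul, mul_one]

theorem RR_lam (hα : Frame α) (g h : Γ) (s t : Λ) :
    RR α (g, h) * lam (s, t) = lam (s, t) * RR α (g, h) := by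
  have h1 : (lam (s, t) : Ell2 (Λ × Λ) →L[ℂ] Ell2 (Λ × Λ)) = tens (lam s) (lam t) := by
    rw [lam, lam, lam, tens_rei]; rfl
  rw [h1, RR_apply, ← tens_mul, ← tens_mul, JJ_cmm (fun t => hα.comm g t),
    JJ_cmm (fun t => hα.comm h t)]

theorem regRep_RR (hα : Frame α) : RegRep (RR α) (dl 1) where
  adj p := by
    rcases p with ⟨g, h⟩
    change adjoint (tens (JJ (α g)) (JJ (α h))) = tens (JJ (α g⁻¹)) (JJ (α h⁻¹))
    rw [adjoint_tens, adjoint_JJ, adjoint_JJ, hα.reg.adj, hα.reg.adj]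
  norm_one := norm_dl 1
  inner_zero p hp := by
    rcases p with ⟨g, h⟩
    change ⟪(dl ((1 : Λ), (1 : Λ)) : Ell2 (Λ × Λ)), RR α (g, h) (dl ((1 : Λ), (1 : Λ)))⟫_ℂ = 0
    rw [RR_apply, tens_dl, dl_prod, inner_tv]
    by_cases hg : g = 1
    · have hh : h ≠ 1 := fun hh => hp (by rw [hg, hh]; rfl)
      have := (regRep_Ja hα).inner_zero h hh
      rw [Ja_apply] at this
      rw [this, mul_zero]
    · have := (regRep_Ja hα).inner_zero g hg
      rw [Ja_apply] at this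
      rw [this, zero_mul]
  total v hv := by
    have h1 : ∀ (g : Γ) (b : Ell2 Λ), ⟪tv (JJ (α g) (dl 1)) b, v⟫_ℂ = 0 := by
      intro g b
      have h2 : adjoint (tvr (JJ (α g) (dl 1))) v = 0 := by
        refine (regRep_Ja hα).total _ fun h => ?_
        rw [adjoint_inner_right, tvr_apply, Ja_apply, ← tens_dl, ← RR_apply]
        exact hv (g, h)
      rw [← tvr_apply, ← adjoint_inner_right, h2, inner_zero_right]
    have h3 : ∀ (a b : Ell2 Λ), ⟪tv a b, v⟫_ℂ = 0 := by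
      intro a b
      have h2 : adjoint (tvl b) v = 0 := by
        refine (regRep_Ja hα).total _ fun g => ?_
        rw [adjoint_inner_right, tvl_apply, Ja_apply]
        exact h1 g b
      rw [← tvl_apply, ← adjoint_inner_right, h2, inner_zero_right]
    refine eq_zero_of_inner_dl ?_
    rintro ⟨a, b⟩
    rw [← inner_dl, dl_prod]
    exact h3 _ _

theorem RR₁_of_RR (g : Γ) : RR₁ α g = RR α (g, 1) := by
  rw [RR_eq, map_one, mul_one]

theorem RR₂_of_RR (g : Γ) : RR₂ α g = RR α (1, g) := by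
  rw [RR_eq, map_one, one_mul]

/-- An operator commutes with the target representations iff it commutes with all `ρ(s, t)`. -/
theorem cmm_iff (hα : Frame α) (X : Ell2 (Λ × Λ) →L[ℂ] Ell2 (Λ × Λ)) :
    ((∀ g, X * RR₁ α g = RR₁ α g * X) ∧ (∀ g, X * RR₂ α g = RR₂ α g * X)) ↔
      ∀ s t, X * rho (s, t) = rho (s, t) * X := by
  constructor
  · rintro ⟨h1, h2⟩ s t
    have hX : Cmm (RR α) X := by
      rintro ⟨g, h⟩
      rw [RR_eq, ← mul_assoc, h1, mul_assoc, h2, mul_assoc]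
    refine RegRep.commute (π := lamH (G := Λ × Λ)) (σ := RR α) regRep_lam (regRep_RR hα) ?_ hX ?_
    · rintro ⟨s, t⟩ ⟨g, h⟩
      exact (RR_lam hα g h s t).symm
    · exact fun g => rho_lam _ g
  · intro h
    have hX : Cmm (rhoH (G := Λ × Λ)) X := fun p => h p.1 p.2
    have key : ∀ g k, X * RR α (g, k) = RR α (g, k) * X := by
      intro g k
      refine RegRep.commute (π := lamH (G := Λ × Λ)) (σ := rhoH) regRep_lam regRep_rho
        (fun a b => (rho_lam b a).symm) hX ?_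
      rintro ⟨s, t⟩
      exact RR_lam hα g k s t
    exact ⟨fun g => by rw [RR₁_of_RR]; exact key _ _, fun g => by rw [RR₂_of_RR]; exact key _ _⟩

theorem cmm2_iff (hα : Frame α) (X : Ell2 (Λ × Λ) →L[ℂ] Ell2 (Λ × Λ)) :
    (∀ g, X * RR₂ α g = RR₂ α g * X) ↔ ∀ t : Λ, X * tens 1 (rho t) = tens 1 (rho t) * X := by
  have key : ∀ y : Ell2 Λ →L[ℂ] Ell2 Λ, (∀ g, y * JJ (α g) = JJ (α g) * y) ↔
      ∀ t : Λ, y * rho t = rho t * y := by
    intro y
    constructor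
    · intro h t
      refine RegRep.commute (π := lamH (G := Λ)) (σ := Ja α) regRep_lam (regRep_Ja hα) ?_ h ?_
      · exact fun s g => (JJ_cmm (fun t => hα.comm g t) s).symm
      · exact fun g => rho_lam _ g
    · intro h g
      refine RegRep.commute (π := lamH (G := Λ)) (σ := rhoH) regRep_lam regRep_rho
        (fun a b => (rho_lam b a).symm) h ?_
      exact fun s => JJ_cmm (fun t => hα.comm g t) s
  have e1 : ∀ g, (RR₂ α g) = tens 1 (JJ (α g)) := fun g => rfl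
  constructor
  · intro h t
    rw [slice_comm_iff]
    intro u v
    refine (key _).1 (fun g => ?_) t
    have := h g
    rw [e1, slice_comm_iff] at this
    exact this u v
  · intro h g
    rw [e1, slice_comm_iff]
    intro u v
    refine (key _).2 (fun t => ?_) g
    have := h t
    rw [slice_comm_iff] at this
    exact this u v

theorem comm_VV₁ (hα : Frame α) (g h : Γ) : VV α g * RR₁ α h = RR₁ α h * VV α g :=
  ((cmm_iff hα _).2 (fun s t => VV_rho hα g s t)).1 h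

theorem comm_VV₂ (hα : Frame α) (g h : Γ) : VV α g * RR₂ α h = RR₂ α h * VV α g :=
  ((cmm_iff hα _).2 (fun s t => VV_rho hα g s t)).2 h

theorem comm_RR (g h : Γ) : RR₁ α g * RR₂ α h = RR₂ α h * RR₁ α g := by
  change tens (JJ (α g)) 1 * tens 1 (JJ (α h)) = tens 1 (JJ (α h)) * tens (JJ (α g)) 1
  rw [← tens_mul, ← tens_mul, one_mul, mul_one, one_mul, mul_one]

/-- **the model is a triple of commuting representations with a trace vector** -/
theorem tri (hα : Frame α) : Tri (VV α) (RR₁ α) (RR₂ α)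
    (fun _ : Unit => (dl 1 : Ell2 (Λ × Λ))) where
  adjV := adj_VV hα
  adj₁ := adj_RR₁ hα
  adj₂ := adj_RR₂ hα
  comm₁ := comm_VV₁ hα
  comm₂ := comm_VV₂ hα
  comm₁₂ := comm_RR
  ne := ⟨(), by rw [← norm_ne_zero_iff, norm_dl]; norm_num⟩
  frame := by
    intro η
    have h1 := (regRep_RR hα).hasSum_inner η η
    have h2 : HasSum (fun p : Γ × Γ => ‖⟪RR α p (dl 1), η⟫_ℂ‖ ^ 2) (‖η‖ ^ 2) := by
      have h3 := Complex.hasSum_re h1
      have h4 : (⟪η, η⟫_ℂ).re = ‖η‖ ^ 2 := by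
        rw [inner_self_eq_norm_sq_to_K]; norm_cast
      rw [h4] at h3
      have h5 : (fun p : Γ × Γ => ‖⟪RR α p (dl 1), η⟫_ℂ‖ ^ 2) =
          fun p => (⟪η, RR α p (dl 1)⟫_ℂ * ⟪RR α p (dl 1), η⟫_ℂ).re := by
        funext p
        rw [← inner_conj_symm η, ← Complex.normSq_eq_conj_mul_self, Complex.normSq_eq_norm_sq,
          Complex.ofReal_re]
      rw [h5]; exact h3
    rw [← (Equiv.punitProd (Γ × Γ)).symm.hasSum_iff]
    have h6 : ((fun p : Unit × Γ × Γ =>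
        ‖⟪RR₁ α p.2.1 (RR₂ α p.2.2 (dl 1 : Ell2 (Λ × Λ))), η⟫_ℂ‖ ^ 2) ∘
          (Equiv.punitProd (Γ × Γ)).symm) = fun p : Γ × Γ => ‖⟪RR α p (dl 1), η⟫_ℂ‖ ^ 2 := by
      funext p
      rcases p with ⟨g, h⟩
      rw [RR_eq]; rfl
    rw [h6]; exact h2

end frame

end Vale.Agent.P092.H839
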