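import Vale.Agent.P092.H839.Kap
import Vale.Agent.P092.H136.Conj

/-!
Recurrence (helper839): the set form of recurrence follows from helper136's functional form; in
particular it holds for `SL_n(k)` modulo its centre.
-/

open Topology Set

namespace Vale.Agent.P092.H839

theorem rec_of_fun {G : Type} [Group G] [TopologicalSpace G] (h : H136.Rec G) : Rec G := by
  intro z hz
  obtain ⟨s, f, q, hf, hq, hfs, hfz⟩ := h z hz
  obtain ⟨r, hr1, hrq⟩ : ∃ r : ℝ, 1 < r ∧ r * r ≤ q := by
    refine ⟨Real.sqrt q, ?_, ?_⟩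
    · rw [Real.lt_sqrt (by norm_num)]; simpa using hq
    · rw [Real.mul_self_sqrt (by linarith)]
  have hr0 : 0 < r := by linarith
  have hq0 : 0 < q := by linarith
  have hpow : ∀ (m : ℕ) (x : G), f (s ^ m * x * (s ^ m)⁻¹) = q ^ m * f x := by
    intro m
    induction m with
    | zero => intro x; simp
    | succ m ih =>
      intro x
      have h1 : s ^ (m + 1) * x * (s ^ (m + 1))⁻¹ = s * (s ^ m * x * (s ^ m)⁻¹) * s⁻¹ := by
        rw [pow_succ']; group
      rw [h1, hfs, ih, pow_succ]; ring
  refine ⟨{x | f z / r < f x ∧ f x < f z * r}, ?_, fun m => s ^ m, ?_⟩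
  · refine IsOpen.mem_nhds ?_ ⟨?_, ?_⟩
    · exact (isOpen_lt continuous_const hf).inter (isOpen_lt hf continuous_const)
    · rw [div_lt_iff₀ hr0]; nlinarith
    · nlinarith
  · have key : ∀ i j : ℕ, i < j → Disjoint
        ((fun y => s ^ i * y * (s ^ i)⁻¹) '' {x | f z / r < f x ∧ f x < f z * r})
        ((fun y => s ^ j * y * (s ^ j)⁻¹) '' {x | f z / r < f x ∧ f x < f z * r}) := by
      intro i j hij
      rw [Set.disjoint_left]
      rintro _ ⟨y, hy, rfl⟩ ⟨y', hy', h2⟩
      have h3 : q ^ j * f y' = q ^ i * f y := by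
        rw [← hpow, ← hpow]; exact congrArg f h2
      have h4 : q ^ i * f y < q ^ i * (f z * r) :=
        mul_lt_mul_of_pos_left hy.2 (pow_pos hq0 i)
      have h5 : q ^ j * (f z / r) < q ^ j * f y' :=
        mul_lt_mul_of_pos_left hy'.1 (pow_pos hq0 j)
      have h6 : q ^ i * (f z * r) ≤ q ^ j * (f z / r) := by
        have h7 : q ^ (i + 1) ≤ q ^ j := pow_le_pow_right₀ hq.le hij
        have h8 : q ^ i * (f z * r) * r ≤ q ^ j * f z := by
          have : q ^ i * (f z * r) * r = (q ^ i * (r * r)) * f z := by ring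
          rw [this]
          refine mul_le_mul_of_nonneg_right ?_ hfz.le
          calc q ^ i * (r * r) ≤ q ^ i * q := mul_le_mul_of_nonneg_left hrq (pow_pos hq0 i).le
            _ = q ^ (i + 1) := (pow_succ q i).symm
            _ ≤ q ^ j := h7
        rw [mul_div_assoc', le_div_iff₀ hr0]
        exact h8
      linarith
    intro i j hij
    rcases lt_or_gt_of_ne hij with h | h
    · exact key i j h
    · exact (key j i h).symm

/-- recurrence of `SL_n(k)` modulo its centre -/
theorem rec_psl (k : Type) [NontriviallyNormedField k] (n : Type) [Fintype n] [DecidableEq n] :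
    Rec (Matrix.SpecialLinearGroup n k ⧸ Subgroup.center (Matrix.SpecialLinearGroup n k)) :=
  rec_of_fun (H136.rec_psl (k := k) (n := n))

end Vale.Agent.P092.H839
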