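import Vale.Agent.P092.H839.Tri
import Vale.Agent.P092.SR.Blocks

/-!
Block B-GLUE-TRI (helper839): the literals `ModelStmt` and `FlipStmt` of `SR/Blocks.lean`.
-/

set_option linter.all false

open scoped InnerProductSpace
open Filter Topology ContinuousLinearMap

namespace Vale.Agent.P092.H839

open Vale.Agent.P092.H160 Vale.Agent.P092.SR

theorem modelStmt : ModelStmt := fun _ hα => tri hα

section flip

variable {Λ : Type} [Group Λ]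

/-- `(a, b) ↦ (a⁻¹, a⁻¹ b)` -/
def eJ (Λ : Type) [Group Λ] : Λ × Λ ≃ Λ × Λ where
  toFun p := (p.1⁻¹, p.1⁻¹ * p.2)
  invFun p := (p.1⁻¹, p.1⁻¹ * p.2)
  left_inv p := by simp
  right_inv p := by simp

theorem eJ_eJ : (eJ Λ).trans (eJ Λ) = Equiv.refl (Λ × Λ) := by
  ext p <;> simp [eJ]

theorem rei_eJ_eJ : (rei (eJ Λ) : Ell2 (Λ × Λ) →L[ℂ] Ell2 (Λ × Λ)) * rei (eJ Λ) = 1 := by
  rw [rei_mul_rei, eJ_eJ]
  ext1 v
  exact rei_refl v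

/-- the antiunitary flip of the source and the first leg -/
noncomputable def Jf (v : Ell2 (Λ × Λ)) : Ell2 (Λ × Λ) := rei (eJ Λ) (cj v)

/-- `x ↦ J x J` -/
noncomputable def CJ (x : Ell2 (Λ × Λ) →L[ℂ] Ell2 (Λ × Λ)) : Ell2 (Λ × Λ) →L[ℂ] Ell2 (Λ × Λ) :=
  rei (eJ Λ) * (bar x * rei (eJ Λ))

theorem cj_rei' (e : Λ × Λ ≃ Λ × Λ) (v : Ell2 (Λ × Λ)) : cj (rei e v) = rei e (cj v) := by
  have h := congrArg (fun T : Ell2 (Λ × Λ) →L[ℂ] Ell2 (Λ × Λ) => T (cj v)) (bar_rei e)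
  simp only [bar_apply, cj_cj] at h
  exact h

theorem Jf_Jf (v : Ell2 (Λ × Λ)) : Jf (Jf v) = v := by
  rw [Jf, Jf, cj_rei', cj_cj, rei_rei, eJ_eJ, rei_refl]

theorem Jf_op (x : Ell2 (Λ × Λ) →L[ℂ] Ell2 (Λ × Λ)) (v : Ell2 (Λ × Λ)) :
    Jf (x v) = CJ x (Jf v) := by
  rw [CJ, mul_ap, mul_ap, Jf, Jf, rei_rei, eJ_eJ, rei_refl, bar_apply, cj_cj]

theorem CJ_eq {x y : Ell2 (Λ × Λ) →L[ℂ] Ell2 (Λ × Λ)} (h : ∀ v, y v = Jf (x (Jf v))) :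
    y = CJ x := by
  ext1 v
  rw [h, Jf_op, Jf_Jf]

theorem CJ_mul (x y : Ell2 (Λ × Λ) →L[ℂ] Ell2 (Λ × Λ)) : CJ (x * y) = CJ x * CJ y := by
  ext1 v
  rw [mul_ap]
  have h1 : ∀ (z : Ell2 (Λ × Λ) →L[ℂ] Ell2 (Λ × Λ)) (w : Ell2 (Λ × Λ)), CJ z w = Jf (z (Jf w)) := by
    intro z w
    rw [Jf_op, Jf_Jf]
  rw [h1, h1, h1, Jf_Jf, mul_ap]

theorem CJ_Del (x : Ell2 Λ →L[ℂ] Ell2 Λ) : CJ (Del x) = tens (JJ x) 1 := by
  have h1 : (rei (eJ Λ) : Ell2 (Λ × Λ) →L[ℂ] Ell2 (Λ × Λ)) * rei (eW Λ).symm =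
      tens (rei (Equiv.inv Λ)) 1 := by
    apply op_ext
    rintro ⟨a, b⟩
    rw [mul_ap, rei_dl, rei_dl, tens_dl, rei_dl]
    change dl ((a⁻¹), (a⁻¹ * (a * b))) = tv (dl a⁻¹) (dl b)
    rw [inv_mul_cancel_left, dl_prod]
  have h2 : (rei (eW Λ) : Ell2 (Λ × Λ) →L[ℂ] Ell2 (Λ × Λ)) * rei (eJ Λ) =
      tens (rei (Equiv.inv Λ)) 1 := by
    apply op_ext
    rintro ⟨a, b⟩
    rw [mul_ap, rei_dl, rei_dl, tens_dl, rei_dl]
    change dl ((a⁻¹), ((a⁻¹)⁻¹ * (a⁻¹ * b))) = tv (dl a⁻¹) (dl b)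
    rw [inv_mul_cancel_left, dl_prod]
  have h3 : bar (Del x) = rei (eW Λ).symm * (tens (bar x) 1 * rei (eW Λ)) := by
    rw [Del, bar_mul, bar_mul, bar_rei, bar_rei, bar_tens, bar_one]
  calc CJ (Del x) = (rei (eJ Λ) * rei (eW Λ).symm) * (tens (bar x) 1 * (rei (eW Λ) * rei (eJ Λ))) := by
        rw [CJ, h3]; simp only [mul_assoc]
    _ = tens (JJ x) 1 := by
        rw [h1, h2, ← tens_mul, ← tens_mul, one_mul, one_mul, JJ]

theorem CJ_rho (t : Λ) : CJ (tens (1 : Ell2 Λ →L[ℂ] Ell2 Λ) (rho t)) = tens 1 (rho t) := by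
  have h3 : bar (tens (1 : Ell2 Λ →L[ℂ] Ell2 Λ) (rho t)) = tens 1 (rho t) := by
    rw [bar_tens, bar_one, bar_rho]
  rw [CJ, h3]
  apply op_ext
  rintro ⟨a, b⟩
  rw [mul_ap, mul_ap, rei_dl]
  change rei (eJ Λ) (tens 1 (rho t) (dl ((a⁻¹), (a⁻¹ * b)))) = _
  rw [tens_dl, tens_dl, rho_dl, rho_dl]
  change rei (eJ Λ) (tv (dl a⁻¹) (dl (a⁻¹ * b * t⁻¹))) = tv (dl a) (dl (b * t⁻¹))
  rw [← dl_prod, ← dl_prod, rei_dl]
  change dl (((a⁻¹)⁻¹), ((a⁻¹)⁻¹ * (a⁻¹ * b * t⁻¹))) = _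
  congr 2
  · group
  · group

end flip

theorem flipStmt : FlipStmt := by
  intro Γ Λ _ _ α hα
  refine ⟨Jf, fun v => sw v, ?_⟩
  refine
    { Jadd := fun x y => by rw [Jf, Jf, Jf, cj_add, map_add]
      Jsmul := fun c x => by rw [Jf, Jf, cj_smul, map_smul]
      Jnorm := fun x => by rw [Jf, norm_rei, norm_cj]
      Jinv := Jf_Jf
      JV := fun g x => by
        rw [Jf_op]
        change CJ (Del (α g)) (Jf x) = tens (JJ (α g)) 1 (Jf x)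
        rw [CJ_Del]
      JR := ?_
      Fadd := fun x y => map_add _ x y
      Fsmul := fun c x => map_smul _ c x
      Fnorm := fun x => by rw [sw]; exact norm_rei _ _
      Finv := fun x => by rw [← mul_ap, sw_sw]; rfl
      FV := fun g x => ?_
      FR₁ := fun g x => ?_ }
  · intro x y hy hx
    have hyx := CJ_eq hy
    rw [cmm2_iff hα] at hx ⊢
    intro t
    rw [hyx, ← CJ_rho t, ← CJ_mul, hx t, CJ_mul]
  · have h := swp_Del (x := α g) (fun t => hα.comm g t)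
    have h2 : sw * VV α g = VV α g * sw := by
      have h3 : VV α g * sw = (sw * (Del (α g) * sw)) * sw := by
        change Del (α g) * sw = _
        nth_rewrite 1 [← h]; rfl
      rw [h3, mul_assoc, mul_assoc, sw_sw, mul_one]; rfl
    rw [← mul_ap, h2, mul_ap]
  · have h := swp_tens (JJ (α g)) (1 : Ell2 Λ →L[ℂ] Ell2 Λ)
    have h2 : sw * RR₁ α g = RR₂ α g * sw := by
      have h3 : RR₂ α g * sw = (sw * (tens (JJ (α g)) 1 * sw)) * sw := by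
        change tens 1 (JJ (α g)) * sw = _
        rw [← h]; rfl
      rw [h3, mul_assoc, mul_assoc, sw_sw, mul_one]; rfl
    rw [← mul_ap, h2, mul_ap]

end Vale.Agent.P092.H839
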