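import Vale.Agent.P092.H361.TA0
import Vale.Agent.P092.SR.Blocks

/-!
Block A1 (helper839): the literal `A1Stmt` of `SR/Blocks.lean` from helper361's `ta0`.
-/

set_option linter.all false

open scoped InnerProductSpace
open Filter Topology ContinuousLinearMap

namespace Vale.Agent.P092.H839

open Vale.Agent.P092.SR Vale.Agent.P092.H144

theorem a1Stmt : A1Stmt := by
  intro Γ H H' ℋ _ _ _ _ _ _ pr pr' S T sc hadS hadT hcomm hscT K' herg K x hx hpos hζ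
  obtain ⟨ζ, hζ0, hsum⟩ := hζ
  have hn : ‖ζ‖ ≠ 0 := norm_ne_zero_iff.2 hζ0
  have hxp : x.IsPositive := (ContinuousLinearMap.nonneg_iff_isPositive x).1 hpos
  obtain ⟨hx1, hx2, hx3⟩ := hx
  set 𝒲 : Set (ℋ →L[ℂ] ℋ) := {w | w ∈ sc ∨ ∃ g, pr g ∈ K' ∧ w = S g} with hWdef
  have hW : ∀ w ∈ 𝒲, ∀ b, w * T b = T b * w := by
    rintro w (hw | ⟨g, _, rfl⟩) b
    · exact hscT w hw b
    · exact hcomm g b
  have hsc : ∀ Y : ℋ →L[ℂ] ℋ, (∀ b, T b * Y = Y * T b) → (∀ w ∈ 𝒲, w * Y = Y * w) →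
      ∃ c : ℂ, Y = c • (1 : ℋ →L[ℂ] ℋ) := by
    intro Y h1 h2
    refine herg Y ⟨fun g hg => (h2 _ (Or.inr ⟨g, hg, rfl⟩)).symm, fun g _ => (h1 g).symm,
      fun a ha => (h2 a (Or.inl ha)).symm⟩
  have hxW : ∀ w ∈ 𝒲, w * x = x * w := by
    rintro w (hw | ⟨g, hg, rfl⟩)
    · exact (hx3 w hw).symm
    · exact (hx1 g hg).symm
  set c : ℂ := ((‖ζ‖⁻¹ : ℝ) : ℂ) with hc
  have h0 : ‖c • ζ‖ = 1 := by
    rw [norm_smul, hc, Complex.norm_real, norm_inv, norm_norm, inv_mul_cancel₀ hn]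
  have hq : ∀ q : Γ ⧸ K.comap pr', qf x (T q.out⁻¹ (c • ζ)) =
      ‖ζ‖⁻¹ ^ 2 * (⟪T (q.out)⁻¹ ζ, x (T (q.out)⁻¹ ζ)⟫_ℂ).re := by
    intro q
    rw [qf, map_smul, map_smul, inner_smul_left, inner_smul_right, hc, Complex.conj_ofReal,
      ← mul_assoc, ← Complex.ofReal_mul, Complex.re_ofReal_mul, sq]
  have hnn : ∀ q : Γ ⧸ K.comap pr', 0 ≤ (⟪T (q.out)⁻¹ ζ, x (T (q.out)⁻¹ ζ)⟫_ℂ).re :=
    fun q => qf_nonneg hxp _
  obtain ⟨t, -, -, ht, -⟩ := Vale.Agent.P092.H361.ta0 (R := T) hadT (V := K.comap pr') hW hsc hxp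
    (fun b hb => (hx2 b hb).symm) hxW h0
    (C := ‖ζ‖⁻¹ ^ 2 * ∑' q : Γ ⧸ K.comap pr', (⟪T (q.out)⁻¹ ζ, x (T (q.out)⁻¹ ζ)⟫_ℂ).re)
    (fun F => by
      simp only [hq]
      rw [← Finset.mul_sum]
      exact mul_le_mul_of_nonneg_left (hsum.sum_le_tsum F fun q _ => hnn q) (by positivity))
  exact ⟨t, ht⟩

end Vale.Agent.P092.H839
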