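import Mathlib

/-!
Block KAP (helper839, Team B of P092): a finitely additive nonnegative kernel on pairs of compact
open sets of a totally disconnected group which is invariant under a lattice on both sides and has
bounded marginals vanishes on disjoint pairs, provided that every point other than one has
infinitely many disjoint conjugates of a neighbourhood.
-/

open MeasureTheory Topology Set

set_option linter.unusedSectionVars false

namespace Vale.Agent.P092.H839

/-- recurrence: small neighbourhoods of points other than one have infinitely many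
pairwise disjoint conjugates. -/
def Rec (G : Type*) [Group G] [TopologicalSpace G] : Prop :=
  ∀ z : G, z ≠ 1 → ∃ E ∈ 𝓝 z, ∃ a : ℕ → G,
    Pairwise fun i j => Disjoint ((fun y => a i * y * (a i)⁻¹) '' E)
      ((fun y => a j * y * (a j)⁻¹) '' E)

/-- compact open sets -/
def CO {G : Type*} [TopologicalSpace G] (C : Set G) : Prop := IsCompact C ∧ IsOpen C

section top

variable {G : Type*} [TopologicalSpace G]

theorem CO.empty : CO (∅ : Set G) := ⟨isCompact_empty, isOpen_empty⟩

theorem CO.union {C D : Set G} (hC : CO C) (hD : CO D) : CO (C ∪ D) :=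
  ⟨hC.1.union hD.1, hC.2.union hD.2⟩

variable [T2Space G]

theorem CO.inter {C D : Set G} (hC : CO C) (hD : CO D) : CO (C ∩ D) :=
  ⟨hC.1.inter hD.1, hC.2.inter hD.2⟩

theorem CO.diff {C D : Set G} (hC : CO C) (hD : CO D) : CO (C \ D) :=
  ⟨hC.1.diff hD.2, hC.2.sdiff hD.1.isClosed⟩

end top

/-- two sided translation of a set -/
def T {G : Type*} [Group G] (a b : G) (C : Set G) : Set G := (fun x => a * x * b) '' C

section grp

variable {G : Type*} [Group G]

theorem T_one (C : Set G) : T 1 1 C = C := by simp [T]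

theorem T_T (a b c d : G) (C : Set G) : T a b (T c d C) = T (a * c) (d * b) C := by
  simp only [T, image_image]
  congr 1; funext x; group

theorem T_inj (a b : G) : Function.Injective (fun x : G => a * x * b) := by
  intro x y h; simpa using h

theorem T_union (a b : G) (C D : Set G) : T a b (C ∪ D) = T a b C ∪ T a b D := image_union _ _ _

theorem T_disj {a b : G} {C D : Set G} (h : Disjoint C D) : Disjoint (T a b C) (T a b D) :=
  (disjoint_image_iff (T_inj a b)).2 h

theorem mem_T {a b : G} {C : Set G} {x : G} : x ∈ T a b C ↔ a⁻¹ * x * b⁻¹ ∈ C := by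
  constructor
  · rintro ⟨y, hy, rfl⟩; simpa [mul_assoc] using hy
  · intro h; exact ⟨_, h, by group⟩

end grp

section basic

variable {G : Type*} [Group G] [TopologicalSpace G] [IsTopologicalGroup G]

theorem CO.T {C : Set G} (hC : CO C) (a b : G) : CO (T a b C) :=
  ⟨hC.1.image (by fun_prop), ((Homeomorph.mulRight b).isOpenMap.comp
    (Homeomorph.mulLeft a).isOpenMap) _ hC.2⟩

theorem lstab {C : Set G} (hC : CO C) : ∃ U ∈ 𝓝 (1 : G), ∀ u ∈ U, T u 1 C = C := by
  obtain ⟨V, hV, hVC⟩ := compact_open_separated_mul_left hC.1 hC.2 subset_rfl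
  refine ⟨V ∩ V⁻¹, Filter.inter_mem hV (inv_mem_nhds_one G hV), fun u hu => ?_⟩
  have key : ∀ w ∈ V, T w 1 C ⊆ C := by
    rintro w hw _ ⟨x, hx, rfl⟩
    exact hVC (by simpa using Set.mul_mem_mul hw hx)
  refine Subset.antisymm (key u hu.1) fun x hx => ?_
  have := key u⁻¹ hu.2 (mem_T.2 (by simpa using hx) : u⁻¹ * x ∈ _)
  exact mem_T.2 (by simpa using this)

theorem rstab {C : Set G} (hC : CO C) : ∃ U ∈ 𝓝 (1 : G), ∀ u ∈ U, T 1 u C = C := by
  obtain ⟨V, hV, hVC⟩ := compact_open_separated_mul_right hC.1 hC.2 subset_rfl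
  refine ⟨V ∩ V⁻¹, Filter.inter_mem hV (inv_mem_nhds_one G hV), fun u hu => ?_⟩
  have key : ∀ w ∈ V, T 1 w C ⊆ C := by
    rintro w hw _ ⟨x, hx, rfl⟩
    exact hVC (by simpa using Set.mul_mem_mul hx hw)
  refine Subset.antisymm (key u hu.1) fun x hx => ?_
  have := key u⁻¹ hu.2 (mem_T.2 (by simpa using hx) : x * u⁻¹ ∈ _)
  exact mem_T.2 (by simpa using this)

end basic

/-- finitely additive functions on compact open sets -/
def Add {G : Type*} [TopologicalSpace G] (φ : Set G → ℝ) : Prop :=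
  ∀ ⦃C D : Set G⦄, CO C → CO D → Disjoint C D → φ (C ∪ D) = φ C + φ D

theorem Add.empty {G : Type*} [TopologicalSpace G] {φ : Set G → ℝ} (h : Add φ) : φ ∅ = 0 := by
  have := h CO.empty CO.empty (disjoint_empty _)
  simpa using this

section coset

variable {G : Type*} [Group G] [TopologicalSpace G] [IsTopologicalGroup G]

/-- decomposition of a compact subgroup in cosets of an open subgroup, seen by additive
functions. -/
theorem index (K L : Subgroup G) (hLK : L ≤ K) (hL : IsOpen (L : Set G))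
    (hLc : IsCompact (L : Set G)) (hK : IsCompact (K : Set G)) :
    ∃ n : ℕ, ∀ φ : Set G → ℝ, Add φ → (∀ u ∈ K, φ (T u 1 (L : Set G)) = φ (L : Set G)) →
      φ (K : Set G) = n * φ (L : Set G) := by
  classical
  set q : G → G ⧸ L := fun x => (x : G ⧸ L) with hq
  have hU : ∀ x : G, {y | q y = q x} = T x 1 (L : Set G) := by
    intro x; ext y
    rw [mem_T]
    simp only [hq, mem_ofPred_eq, SetLike.mem_coe, inv_one, mul_one]
    rw [eq_comm, QuotientGroup.eq]
  have hco : ∀ x : G, CO (T x 1 (L : Set G)) := fun x => CO.T ⟨hLc, hL⟩ x 1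
  obtain ⟨t, htK, hKt⟩ := hK.elim_nhds_subcover (fun x => T x 1 (L : Set G))
    (fun x _ => (hco x).2.mem_nhds (mem_T.2 (by simp)))
  set s : Finset (G ⧸ L) := t.image q with hs
  have hKs : (K : Set G) = {x | q x ∈ s} := by
    ext x
    constructor
    · intro hx
      obtain ⟨y, hy, hxy⟩ := mem_iUnion₂.1 (hKt hx)
      rw [← hU] at hxy
      exact Finset.mem_image.2 ⟨y, hy, hxy.symm⟩
    · intro hx
      obtain ⟨y, hy, hxy⟩ := Finset.mem_image.1 hx
      have : y⁻¹ * x ∈ L := by
        have h1 : q y = q x := hxy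
        simpa [hq, QuotientGroup.eq] using h1
      have h2 : x = y * (y⁻¹ * x) := by group
      rw [h2]
      exact K.mul_mem (htK y hy) (hLK this)
  refine ⟨s.card, fun φ hφ hinv => ?_⟩
  have main : ∀ r : Finset (G ⧸ L), r ⊆ s → CO {x | q x ∈ r} ∧
      φ {x | q x ∈ r} = r.card * φ (L : Set G) := by
    intro r
    induction r using Finset.induction_on with
    | empty => intro _; simpa using ⟨CO.empty, hφ.empty⟩
    | insert a r ha ih =>
      intro hr
      obtain ⟨h1, h2⟩ := ih fun x hx => hr (Finset.mem_insert_of_mem hx)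
      obtain ⟨u, hu, hua⟩ := Finset.mem_image.1 (hr (Finset.mem_insert_self a r))
      have h3 : {x | q x ∈ insert a r} = {y | q y = q u} ∪ {x | q x ∈ r} := by
        ext x; simp [hua]
      have h4 : Disjoint {y | q y = q u} {x | q x ∈ r} := by
        rw [Set.disjoint_left]
        intro x hx hx'
        apply ha
        rw [← hua, ← (hx : q x = q u)]; exact hx'
      rw [h3]
      rw [hU] at h4 ⊢
      refine ⟨(hco u).union h1, ?_⟩
      rw [hφ (hco u) h1 h4, hinv u (htK u hu), h2, Finset.card_insert_of_notMem ha]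
      push_cast; ring
  rw [hKs]
  exact (main s subset_rfl).2

end coset

/-- kernels -/
structure Ker {G : Type*} [TopologicalSpace G] (v : Set G → ℝ) (B : ℝ)
    (κ : Set G → Set G → ℝ) : Prop where
  nonneg : ∀ {C D : Set G}, CO C → CO D → 0 ≤ κ C D
  add₁ : ∀ {D : Set G}, CO D → Add fun C => κ C D
  add₂ : ∀ {C : Set G}, CO C → Add fun D => κ C D
  le : ∀ {C D : Set G}, CO C → CO D → κ C D ≤ B * v C

section add

variable {G : Type*} [TopologicalSpace G]

theorem Add.sum {φ : Set G → ℝ} (hφ : Add φ) {ι : Type*} (s : Finset ι) (E : ι → Set G)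
    (hE : ∀ i ∈ s, CO (E i)) (hd : ∀ i ∈ s, ∀ j ∈ s, i ≠ j → Disjoint (E i) (E j)) :
    CO (⋃ i ∈ s, E i) ∧ φ (⋃ i ∈ s, E i) = ∑ i ∈ s, φ (E i) := by
  classical
  induction s using Finset.induction_on with
  | empty => simpa using ⟨CO.empty, hφ.empty⟩
  | insert a s ha ih =>
    obtain ⟨h1, h2⟩ := ih (fun i hi => hE i (Finset.mem_insert_of_mem hi))
      (fun i hi j hj => hd i (Finset.mem_insert_of_mem hi) j (Finset.mem_insert_of_mem hj))
    have h3 : Disjoint (E a) (⋃ i ∈ s, E i) := by
      simp only [disjoint_iUnion_right]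
      exact fun i hi => hd a (Finset.mem_insert_self a s) i (Finset.mem_insert_of_mem hi)
        (by rintro rfl; exact ha hi)
    rw [Finset.set_biUnion_insert, Finset.sum_insert ha,
      hφ (hE a (Finset.mem_insert_self a s)) h1 h3, h2]
    exact ⟨(hE a (Finset.mem_insert_self a s)).union h1, rfl⟩

variable {v : Set G → ℝ} {B : ℝ} {κ : Set G → Set G → ℝ}

theorem Ker.mono₁ [T2Space G] (hκ : Ker v B κ) {C C' D : Set G} (hC : CO C) (hC' : CO C')
    (hD : CO D) (h : C ⊆ C') (h0 : κ C' D = 0) : κ C D = 0 := by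
  have h1 := hκ.add₁ hD hC (hC'.diff hC) disjoint_sdiff_right
  simp only [union_sdiff_cancel h] at h1
  have h2 := hκ.nonneg hC hD
  have h3 := hκ.nonneg (hC'.diff hC) hD
  linarith

theorem Ker.mono₂ [T2Space G] (hκ : Ker v B κ) {C D D' : Set G} (hC : CO C) (hD : CO D)
    (hD' : CO D') (h : D ⊆ D') (h0 : κ C D' = 0) : κ C D = 0 := by
  have h1 := hκ.add₂ hC hD (hD'.diff hD) disjoint_sdiff_right
  simp only [union_sdiff_cancel h] at h1
  have h2 := hκ.nonneg hC hD
  have h3 := hκ.nonneg hC (hD'.diff hD)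
  linarith

/-- an additive nonnegative function vanishing on the members of a finite cover vanishes. -/
theorem Add.cover [T2Space G] {φ : Set G → ℝ} (hφ : Add φ) {ι : Type*} (s : Finset ι)
    (E : ι → Set G) (hE : ∀ i ∈ s, CO (E i)) (h0 : ∀ i ∈ s, ∀ D, CO D → D ⊆ E i → φ D = 0) :
    ∀ D : Set G, CO D → D ⊆ (⋃ i ∈ s, E i) → φ D = 0 := by
  classical
  induction s using Finset.induction_on with
  | empty =>
    intro D _ hD
    have : D = ∅ := by simpa using hD
    rw [this]; exact hφ.empty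
  | insert a s ha ih =>
    intro D hD hDs
    have h1 := hφ (hD.inter (hE a (Finset.mem_insert_self a s)))
      (hD.diff (hE a (Finset.mem_insert_self a s))) disjoint_inf_sdiff
    rw [inter_union_sdiff] at h1
    rw [h1, h0 a (Finset.mem_insert_self a s) _ (hD.inter (hE a (Finset.mem_insert_self a s)))
      inter_subset_right, zero_add]
    refine ih (fun i hi => hE i (Finset.mem_insert_of_mem hi))
      (fun i hi => h0 i (Finset.mem_insert_of_mem hi)) _
      (hD.diff (hE a (Finset.mem_insert_self a s))) ?_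
    intro x hx
    have h2 := hDs hx.1
    rw [Finset.set_biUnion_insert] at h2
    exact h2.resolve_left hx.2

end add

section bi

variable {G : Type*} [Group G] [TopologicalSpace G]

/-- two sided invariant volume -/
structure Vol (v : Set G → ℝ) : Prop where
  add : Add v
  inv : ∀ (a b : G) {C : Set G}, CO C → v (T a b C) = v C
  pos : ∀ {C : Set G}, CO C → C.Nonempty → 0 < v C

variable [NonarchimedeanGroup G] [LocallyCompactSpace G]

theorem small {U : Set G} (hU : U ∈ 𝓝 (1 : G)) :
    ∃ K : Subgroup G, IsOpen (K : Set G) ∧ IsCompact (K : Set G) ∧ (K : Set G) ⊆ U := by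
  obtain ⟨W, hWc, hW⟩ := exists_compact_mem_nhds (1 : G)
  obtain ⟨V, hV⟩ := NonarchimedeanGroup.is_nonarchimedean (U ∩ W) (Filter.inter_mem hU hW)
  exact ⟨V.toSubgroup, V.isOpen, hWc.of_isClosed_subset V.isClosed fun x hx => (hV hx).2,
    fun x hx => (hV hx).1⟩

variable {v : Set G → ℝ} {B : ℝ} {κ : Set G → Set G → ℝ}

theorem zero_at
    (hv : Vol v) (hκ : Ker v B κ)
    (hinv : ∀ (a b : G) {C D : Set G}, CO C → CO D → κ (T a b C) (T a b D) = κ C D)
    {E : Set G} (hE : CO E) (a : ℕ → G)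
    (hd : Pairwise fun i j => Disjoint (T (a i) (a i)⁻¹ E) (T (a j) (a j)⁻¹ E))
    (K : Subgroup G) (hKo : IsOpen (K : Set G)) (hKc : IsCompact (K : Set G))
    (hst : ∀ u ∈ K, T u 1 E = E) : κ (K : Set G) E = 0 := by
  by_contra hne
  have hK : CO (K : Set G) := ⟨hKc, hKo⟩
  have hpos : 0 < κ (K : Set G) E := lt_of_le_of_ne (hκ.nonneg hK hE) (Ne.symm hne)
  obtain ⟨n, hn⟩ := exists_nat_gt (B * v (K : Set G) / κ (K : Set G) E)
  rw [div_lt_iff₀ hpos] at hn
  -- a small subgroup
  obtain ⟨L, hLo, hLc, hLU⟩ := small (G := G)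
    (U := ⋂ i ∈ Finset.range n, {x : G | (a i)⁻¹ * x * a i ∈ K}) (by
      refine (Filter.biInter_finset_mem _).2 fun i _ => ?_
      have h1 : Continuous fun x : G => (a i)⁻¹ * x * a i := by fun_prop
      exact h1.continuousAt.preimage_mem_nhds (hKo.mem_nhds (by simp)))
  have hL : CO (L : Set G) := ⟨hLc, hLo⟩
  have hvL : 0 < v (L : Set G) := hv.pos hL ⟨1, L.one_mem⟩
  have hvK : 0 < v (K : Set G) := hv.pos hK ⟨1, K.one_mem⟩
  have step : ∀ i ∈ Finset.range n,
      κ (K : Set G) E * v (L : Set G) = κ (L : Set G) (T (a i) (a i)⁻¹ E) * v (K : Set G) := by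
    intro i hi
    set M : Subgroup G := L.map (MulAut.conj (a i)⁻¹).toMonoidHom with hM
    have hMs : (M : Set G) = T (a i)⁻¹ (a i) (L : Set G) := by
      rw [hM, Subgroup.coe_map, T]
      refine image_congr fun x _ => ?_
      simp
    have hMK : M ≤ K := by
      rintro x hx
      rw [← SetLike.mem_coe, hMs, mem_T] at hx
      have h1 := mem_iInter₂.1 (hLU hx) i hi
      have h2 : (a i)⁻¹ * ((a i)⁻¹⁻¹ * x * (a i)⁻¹) * a i = x := by group
      rw [mem_ofPred_eq, h2] at h1
      exact h1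
    have hMco : CO (M : Set G) := by rw [hMs]; exact hL.T _ _
    obtain ⟨m, hm⟩ := index K M hMK hMco.2 hMco.1 hKc
    have h1 := hm (fun C => κ C E) (hκ.add₁ hE) (fun u hu => by
      have h3 := hinv u⁻¹ 1 (hMco.T u 1) hE
      rw [T_T, hst u⁻¹ (K.inv_mem hu)] at h3
      simp only [inv_mul_cancel, mul_one, T_one] at h3
      exact h3.symm)
    have h2 := hm v hv.add (fun u _ => hv.inv u 1 hMco)
    have h3 : κ (M : Set G) E = κ (L : Set G) (T (a i) (a i)⁻¹ E) := by
      rw [← hinv (a i) (a i)⁻¹ hMco hE, hMs, T_T]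
      simp [T_one]
    have h4 : v (M : Set G) = v (L : Set G) := by rw [hMs]; exact hv.inv _ _ hL
    rw [h1, h2, h3, h4]; ring
  have hsum := (hκ.add₂ hL).sum (Finset.range n) (fun i => T (a i) (a i)⁻¹ E)
    (fun i _ => hE.T _ _) (fun i _ j _ hij => hd hij)
  have h1 := hκ.le hL hsum.1
  have h2 : (n : ℝ) * (κ (K : Set G) E * v (L : Set G)) ≤ B * v (L : Set G) * v (K : Set G) := by
    have h3 : ∑ i ∈ Finset.range n, κ (K : Set G) E * v (L : Set G)
        = (∑ i ∈ Finset.range n, κ (L : Set G) (T (a i) (a i)⁻¹ E)) * v (K : Set G) := by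
      rw [Finset.sum_mul]; exact Finset.sum_congr rfl step
    rw [Finset.sum_const, Finset.card_range, nsmul_eq_mul] at h3
    rw [h3, ← hsum.2]
    exact mul_le_mul_of_nonneg_right h1 hvK.le
  have h5 : (n : ℝ) * κ (K : Set G) E ≤ B * v (K : Set G) := by
    have : (n * κ (K : Set G) E) * v (L : Set G) ≤ (B * v (K : Set G)) * v (L : Set G) := by
      nlinarith
    exact le_of_mul_le_mul_right this hvL
  linarith

/-- bi-invariant kernels live on the diagonal. -/
theorem bi [T2Space G] (hrec : Rec G)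
    (hv : Vol v) (hκ : Ker v B κ)
    (hinv : ∀ (a b : G) {C D : Set G}, CO C → CO D → κ (T a b C) (T a b D) = κ C D)
    {C D : Set G} (hC : CO C) (hD : CO D) (hCD : Disjoint C D) : κ C D = 0 := by
  classical
  -- local statement
  have loc : ∀ x ∈ C, ∀ y ∈ D, ∃ P Q : Set G, CO P ∧ CO Q ∧ x ∈ P ∧ y ∈ Q ∧ κ P Q = 0 := by
    intro x hx y hy
    have hz : x⁻¹ * y ≠ 1 := by
      intro h
      have : x = y := by rw [inv_mul_eq_one] at h; exact h
      subst this
      exact Set.disjoint_left.1 hCD hx hy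
    set z := x⁻¹ * y with hzdef
    obtain ⟨E0, hE0, a, ha⟩ := hrec z hz
    obtain ⟨K1, hK1o, hK1c, hK1⟩ := small (G := G) (U := (fun u => z * u) ⁻¹' E0) (by
      have h1 : Continuous fun u : G => z * u := by fun_prop
      exact h1.continuousAt.preimage_mem_nhds (by simpa using hE0))
    set E := T z 1 (K1 : Set G) with hE
    have hEco : CO E := CO.T ⟨hK1c, hK1o⟩ _ _
    have hEsub : E ⊆ E0 := by
      rintro _ ⟨u, hu, rfl⟩
      simpa using hK1 hu
    obtain ⟨K0, hK0o, hK0c, hK0⟩ := small (G := G) (U := {u | z⁻¹ * u * z ∈ K1}) (by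
      have h1 : Continuous fun u : G => z⁻¹ * u * z := by fun_prop
      exact h1.continuousAt.preimage_mem_nhds (hK1o.mem_nhds (by simp)))
    have hst : ∀ u ∈ K0, T u 1 E = E := by
      intro u hu
      ext w
      have h1 : z⁻¹ * u * z ∈ K1 := hK0 hu
      rw [hE, T_T, mem_T, mem_T]
      simp only [SetLike.mem_coe, mul_one, inv_one]
      have h2 : (u * z)⁻¹ * w = (z⁻¹ * u * z)⁻¹ * (z⁻¹ * w) := by group
      rw [h2, K1.mul_mem_cancel_left (K1.inv_mem h1)]
    have h0 : κ (K0 : Set G) E = 0 := by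
      refine zero_at hv hκ hinv hEco a (fun i j hij => ?_) K0 hK0o hK0c hst
      exact (ha hij).mono (image_mono hEsub) (image_mono hEsub)
    refine ⟨T x 1 (K0 : Set G), T x 1 E, CO.T ⟨hK0c, hK0o⟩ _ _, hEco.T _ _,
      mem_T.2 (by simp), mem_T.2 ?_, ?_⟩
    · rw [hE, mem_T]
      have : z⁻¹ * (x⁻¹ * y * 1⁻¹) * 1⁻¹ = 1 := by rw [hzdef]; group
      rw [this]; exact K1.one_mem
    · rw [hinv x 1 ⟨hK0c, hK0o⟩ hEco]; exact h0
  -- one variable
  have one : ∀ x ∈ C, ∃ P : Set G, CO P ∧ x ∈ P ∧ κ P D = 0 := by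
    intro x hx
    choose! P Q hP hQ hxP hyQ hPQ using fun y hy => loc x hx y hy
    obtain ⟨t, htD, hDt⟩ := hD.1.elim_nhds_subcover Q
      (fun y hy => (hQ y hy).2.mem_nhds (hyQ y hy))
    by_cases hte : t.Nonempty
    · have hPco : ∀ s : Finset G, s.Nonempty → s ⊆ t → CO (⋂ y ∈ s, P y) := by
        intro s hs
        induction hs using Finset.Nonempty.cons_induction with
        | singleton a =>
          intro h
          simpa using hP a (htD a (h (by simp)))
        | cons a s ha hs ih =>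
          intro h
          rw [Finset.cons_eq_insert, Finset.set_biInter_insert]
          exact (hP a (htD a (h (by simp)))).inter
            (ih fun x hx => h (Finset.mem_cons_of_mem hx))
      have hPt := hPco t hte subset_rfl
      refine ⟨⋂ y ∈ t, P y, hPt, mem_iInter₂.2 fun y hy => hxP y (htD y hy), ?_⟩
      refine (hκ.add₂ hPt).cover t Q (fun y hy => hQ y (htD y hy)) (fun y hy D' hD' hD'Q => ?_)
        D hD hDt
      exact hκ.mono₁ hPt (hP y (htD y hy)) hD' (biInter_subset_of_mem hy)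
        (hκ.mono₂ (hP y (htD y hy)) hD' (hQ y (htD y hy)) hD'Q (hPQ y (htD y hy)))
    · have hte' : t = ∅ := Finset.not_nonempty_iff_eq_empty.1 hte
      have hDe : D = ∅ := by subst hte'; simpa using hDt
      refine ⟨C, hC, hx, ?_⟩
      rw [hDe]; exact (hκ.add₂ hC).empty
  choose! P hP hxP hPD using one
  obtain ⟨t, htC, hCt⟩ := hC.1.elim_nhds_subcover P
    (fun x hx => (hP x hx).2.mem_nhds (hxP x hx))
  exact (hκ.add₁ hD).cover t P (fun x hx => hP x (htC x hx))
    (fun x hx C' hC' hC'P => hκ.mono₁ hC' (hP x (htC x hx)) hD hC'P (hPD x (htC x hx))) C hC hCt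

end bi

section avg

variable {G : Type*} [Group G] [TopologicalSpace G] [MeasurableSpace G] [BorelSpace G]

theorem zero_of_int {Θ : Type*} [Group Θ] [Countable Θ] [MulAction Θ G] (μ : Measure G)
    [μ.IsOpenPosMeasure] [MeasurableConstSMul Θ G] [SMulInvariantMeasure Θ G μ] {s : Set G}
    (hs : IsFundamentalDomain Θ s μ) {f : G → ℝ} (hf : Continuous f) (h0 : ∀ x, 0 ≤ f x)
    (hinv : ∀ (θ : Θ) x, f (θ • x) = f x) (hint : IntegrableOn f s μ)
    (hz : ∫ x in s, f x ∂μ = 0) (x : G) : f x = 0 := by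
  have h1 : f =ᵐ[μ.restrict s] 0 :=
    (integral_eq_zero_iff_of_nonneg (fun x => h0 x) hint).1 hz
  set t : Set G := {x | f x ≠ 0} with ht
  have hto : IsOpen t := hf.isOpen_preimage _ isOpen_compl_singleton
  have h2 : μ (t ∩ s) = 0 := by
    have h3 : (μ.restrict s) t = 0 := by
      simpa [Filter.EventuallyEq, ae_iff] using h1
    rwa [Measure.restrict_apply hto.measurableSet] at h3
  have h3 : μ t = 0 := by
    refine hs.measure_zero_of_invariant t (fun θ => ?_) h2
    ext y
    rw [Set.mem_smul_set_iff_inv_smul_mem]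
    simp only [ht, mem_ofPred_eq, hinv]
  have h4 : t = ∅ := (hto.measure_eq_zero_iff μ).1 h3
  by_contra hne
  have : x ∈ t := hne
  rw [h4] at this; exact this

variable [IsTopologicalGroup G]

theorem cont_right {f : G → ℝ} {U : Set G} (hU : U ∈ 𝓝 (1 : G)) (h : ∀ u ∈ U, ∀ g, f (g * u) = f g) :
    Continuous f := by
  rw [continuous_iff_continuousAt]
  intro g
  have h1 : ∀ᶠ x in 𝓝 g, f x = f g := by
    have h2 : {x | g⁻¹ * x ∈ U} ∈ 𝓝 g := by
      have h3 : Continuous fun x : G => g⁻¹ * x := by fun_prop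
      exact h3.continuousAt.preimage_mem_nhds (by simpa using hU)
    filter_upwards [h2] with x hx
    have := h _ hx g
    simpa using this
  exact (continuousAt_const (y := f g)).congr (h1.mono fun x hx => hx.symm)

theorem cont_left {f : G → ℝ} {U : Set G} (hU : U ∈ 𝓝 (1 : G)) (h : ∀ u ∈ U, ∀ g, f (u * g) = f g) :
    Continuous f := by
  rw [continuous_iff_continuousAt]
  intro g
  have h1 : ∀ᶠ x in 𝓝 g, f x = f g := by
    have h2 : {x | x * g⁻¹ ∈ U} ∈ 𝓝 g := by
      have h3 : Continuous fun x : G => x * g⁻¹ := by fun_prop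
      exact h3.continuousAt.preimage_mem_nhds (by simpa using hU)
    filter_upwards [h2] with x hx
    have := h _ hx g
    simpa using this
  exact (continuousAt_const (y := f g)).congr (h1.mono fun x hx => hx.symm)

variable (μ : Measure G) [μ.IsMulLeftInvariant] [μ.IsMulRightInvariant]

theorem avl (Θ : Subgroup G) [Countable Θ] {s : Set G} (hs : IsFundamentalDomain Θ s μ)
    {f : G → ℝ} (hf : ∀ θ ∈ Θ, ∀ x, f (θ * x) = f x) (c : G) :
    ∫ x in s, f (x * c) ∂μ = ∫ x in s, f x ∂μ := by
  have h1 := hs.setIntegral_eq (hs.smul_of_comm (MulOpposite.op c)) (f := f)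
    (fun θ x => hf θ θ.2 x)
  rw [h1]
  have h2 := (measurePreserving_smul (MulOpposite.op c) μ).setIntegral_image_emb
    (measurableEmbedding_const_smul _) f s
  rw [Set.image_smul] at h2
  rw [h2]
  rfl

theorem avr (Θ : Subgroup G) [Countable Θ.op] {s : Set G} (hs : IsFundamentalDomain Θ.op s μ)
    {f : G → ℝ} (hf : ∀ θ ∈ Θ, ∀ x, f (x * θ) = f x) (c : G) :
    ∫ x in s, f (c * x) ∂μ = ∫ x in s, f x ∂μ := by
  have h1 := hs.setIntegral_eq (hs.smul_of_comm c) (f := f)
    (fun θ x => hf θ.1.unop θ.2 x)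
  rw [h1]
  have h2 := (measurePreserving_smul c μ).setIntegral_image_emb
    (measurableEmbedding_const_smul _) f s
  rw [Set.image_smul] at h2
  rw [h2]
  rfl

end avg

section kap

variable {G : Type*} [Group G] [TopologicalSpace G] [NonarchimedeanGroup G]
  [LocallyCompactSpace G] [T2Space G] [MeasurableSpace G] [BorelSpace G]

open scoped Pointwise in
theorem vol_real (μ : Measure G) [μ.IsHaarMeasure] [μ.IsMulRightInvariant] :
    Vol (fun C : Set G => μ.real C) where
  add := by
    intro C D hC hD h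
    exact measureReal_union h hD.2.measurableSet hC.1.measure_ne_top hD.1.measure_ne_top
  inv := by
    intro a b C hC
    have h1 : T a b C = MulOpposite.op b • (a • C) := by
      ext x
      simp [T, Set.mem_smul_set]
    simp only [h1, measureReal_def, measure_smul]
  pos := by
    intro C hC hne
    exact ENNReal.toReal_pos (hC.2.measure_pos μ hne).ne' hC.1.measure_ne_top

variable (μ : Measure G) [μ.IsHaarMeasure] [μ.IsMulRightInvariant]
  (Θ : Subgroup G) [Countable Θ] [Countable Θ.op] {sl sr : Set G}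
  (hsl : IsFundamentalDomain Θ sl μ) (hl : μ sl ≠ ⊤)
  (hsr : IsFundamentalDomain Θ.op sr μ) (hr : μ sr ≠ ⊤)
  {B : ℝ} {κ : Set G → Set G → ℝ} (hκ : Ker (fun C => μ.real C) B κ)
  (hL : ∀ θ ∈ Θ, ∀ {C D : Set G}, CO C → CO D → κ (T θ 1 C) (T θ 1 D) = κ C D)
  (hR : ∀ θ ∈ Θ, ∀ {C D : Set G}, CO C → CO D → κ (T 1 θ C) (T 1 θ D) = κ C D)

/-- inner average -/
noncomputable def innr (μ : Measure G) (sl : Set G) (κ : Set G → Set G → ℝ) (C D : Set G)
    (b : G) : ℝ := ∫ a in sl, κ (T a b C) (T a b D) ∂μ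

/-- the averaged kernel -/
noncomputable def avk (μ : Measure G) (sl sr : Set G) (κ : Set G → Set G → ℝ) (C D : Set G) : ℝ :=
  ∫ b in sr, innr μ sl κ C D b ∂μ

omit [LocallyCompactSpace G] [T2Space G] [MeasurableSpace G] [BorelSpace G] in
theorem left_lc {C D : Set G} (hC : CO C) (hD : CO D) (κ : Set G → Set G → ℝ) :
    ∃ U ∈ 𝓝 (1 : G), ∀ u ∈ U, ∀ a b : G,
      κ (T (a * u) b C) (T (a * u) b D) = κ (T a b C) (T a b D) := by
  obtain ⟨U, hU, h1⟩ := lstab hC
  obtain ⟨V, hV, h2⟩ := lstab hD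
  refine ⟨U ∩ V, Filter.inter_mem hU hV, fun u hu a b => ?_⟩
  have h3 : ∀ E : Set G, T (a * u) b E = T a b (T u 1 E) := fun E => by rw [T_T]; simp
  rw [h3, h3, h1 u hu.1, h2 u hu.2]

omit [LocallyCompactSpace G] [T2Space G] [MeasurableSpace G] [BorelSpace G] in
theorem right_lc {C D : Set G} (hC : CO C) (hD : CO D) (κ : Set G → Set G → ℝ) :
    ∃ U ∈ 𝓝 (1 : G), ∀ u ∈ U, ∀ a b : G,
      κ (T a (u * b) C) (T a (u * b) D) = κ (T a b C) (T a b D) := by
  obtain ⟨U, hU, h1⟩ := rstab hC
  obtain ⟨V, hV, h2⟩ := rstab hD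
  refine ⟨U ∩ V, Filter.inter_mem hU hV, fun u hu a b => ?_⟩
  have h3 : ∀ E : Set G, T a (u * b) E = T a b (T 1 u E) := fun E => by rw [T_T]; simp
  rw [h3, h3, h1 u hu.1, h2 u hu.2]

omit [LocallyCompactSpace G] [T2Space G] in
theorem cont_F {C D : Set G} (hC : CO C) (hD : CO D) (κ : Set G → Set G → ℝ) (b : G) :
    Continuous fun a => κ (T a b C) (T a b D) := by
  obtain ⟨U, hU, h⟩ := left_lc hC hD κ
  exact cont_right hU fun u hu g => h u hu g b

omit [LocallyCompactSpace G] [T2Space G] in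
theorem cont_innr {C D : Set G} (hC : CO C) (hD : CO D) (κ : Set G → Set G → ℝ) (sl : Set G)
    (μ : Measure G) : Continuous fun b => innr μ sl κ C D b := by
  obtain ⟨U, hU, h⟩ := right_lc hC hD κ
  refine cont_left hU fun u hu g => ?_
  simp only [innr, h u hu]

include hκ in
theorem F_le {C D : Set G} (hC : CO C) (hD : CO D) (a b : G) :
    ‖κ (T a b C) (T a b D)‖ ≤ B * μ.real C := by
  rw [Real.norm_of_nonneg (hκ.nonneg (hC.T a b) (hD.T a b))]
  have := hκ.le (hC.T a b) (hD.T a b)
  rwa [(vol_real μ).inv a b hC] at this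

include hκ hl in
theorem int_F {C D : Set G} (hC : CO C) (hD : CO D) (b : G) :
    IntegrableOn (fun a => κ (T a b C) (T a b D)) sl μ :=
  Measure.integrableOn_of_bounded hl (cont_F hC hD κ b).aestronglyMeasurable
    (Filter.Eventually.of_forall fun a => F_le μ hκ hC hD a b)

include hκ hl in
theorem innr_le {C D : Set G} (hC : CO C) (hD : CO D) (b : G) :
    ‖innr μ sl κ C D b‖ ≤ B * μ.real C * μ.real sl := by
  have := norm_setIntegral_le_of_norm_le_const (μ := μ) (s := sl)
    (f := fun a => κ (T a b C) (T a b D)) (C := B * μ.real C) hl.lt_top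
    (fun a _ => F_le μ hκ hC hD a b)
  exact this

include hκ in
theorem innr_nonneg {C D : Set G} (hC : CO C) (hD : CO D) (b : G) :
    0 ≤ innr μ sl κ C D b :=
  integral_nonneg fun a => hκ.nonneg (hC.T a b) (hD.T a b)

include hκ hl hr in
theorem int_innr {C D : Set G} (hC : CO C) (hD : CO D) :
    IntegrableOn (fun b => innr μ sl κ C D b) sr μ :=
  Measure.integrableOn_of_bounded hr (cont_innr hC hD κ sl μ).aestronglyMeasurable
    (Filter.Eventually.of_forall fun b => innr_le μ hl hκ hC hD b)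

include hκ hl hr in
theorem ker_avk : Ker (fun C => μ.real C) (B * μ.real sl * μ.real sr) (avk μ sl sr κ) where
  nonneg := fun hC hD => integral_nonneg fun b => innr_nonneg μ hκ hC hD b
  add₁ := by
    intro D hD C C' hC hC' h
    have h1 : ∀ b, innr μ sl κ (C ∪ C') D b = innr μ sl κ C D b + innr μ sl κ C' D b := by
      intro b
      rw [innr, innr, innr, ← integral_add (int_F μ hl hκ hC hD b) (int_F μ hl hκ hC' hD b)]
      refine integral_congr_ae (Filter.Eventually.of_forall fun a => ?_)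
      simp only [T_union]
      exact hκ.add₁ (hD.T a b) (hC.T a b) (hC'.T a b) (T_disj h)
    simp only [avk, h1]
    exact integral_add (int_innr μ hl hr hκ hC hD) (int_innr μ hl hr hκ hC' hD)
  add₂ := by
    intro D hD C C' hC hC' h
    have h1 : ∀ b, innr μ sl κ D (C ∪ C') b = innr μ sl κ D C b + innr μ sl κ D C' b := by
      intro b
      rw [innr, innr, innr, ← integral_add (int_F μ hl hκ hD hC b) (int_F μ hl hκ hD hC' b)]
      refine integral_congr_ae (Filter.Eventually.of_forall fun a => ?_)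
      simp only [T_union]
      exact hκ.add₂ (hD.T a b) (hC.T a b) (hC'.T a b) (T_disj h)
    simp only [avk, h1]
    exact integral_add (int_innr μ hl hr hκ hD hC) (int_innr μ hl hr hκ hD hC')
  le := by
    intro C D hC hD
    have := norm_setIntegral_le_of_norm_le_const (μ := μ) (s := sr)
      (f := fun b => innr μ sl κ C D b) (C := B * μ.real C * μ.real sl) hr.lt_top
      (fun b _ => innr_le μ hl hκ hC hD b)
    calc avk μ sl sr κ C D ≤ ‖avk μ sl sr κ C D‖ := le_abs_self _
      _ ≤ B * μ.real C * μ.real sl * μ.real sr := this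
      _ = B * μ.real sl * μ.real sr * μ.real C := by ring

include hsl hsr hL hR in
theorem avk_inv (c d : G) {C D : Set G} (hC : CO C) (hD : CO D) :
    avk μ sl sr κ (T c d C) (T c d D) = avk μ sl sr κ C D := by
  have h1 : ∀ b, innr μ sl κ (T c d C) (T c d D) b = innr μ sl κ C D (d * b) := by
    intro b
    have h2 := avl μ Θ hsl (f := fun a => κ (T a (d * b) C) (T a (d * b) D))
      (fun θ hθ x => by
        have h3 : ∀ E : Set G, T (θ * x) (d * b) E = T θ 1 (T x (d * b) E) := fun E => by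
          rw [T_T]; simp
        simp only [h3]
        exact hL θ hθ (hC.T _ _) (hD.T _ _)) c
    simp only [innr, T_T]
    exact h2
  simp only [avk, h1]
  refine avr μ Θ hsr (f := fun b => innr μ sl κ C D b) (fun θ hθ x => ?_) d
  have h3 : ∀ (a : G) (E : Set G), T a (x * θ) E = T 1 θ (T a x E) := fun a E => by
    rw [T_T]; simp
  simp only [innr, h3]
  refine integral_congr_ae (Filter.Eventually.of_forall fun a => ?_)
  exact hR θ hθ (hC.T _ _) (hD.T _ _)

include hsl hl hsr hr hκ hL hR in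
/-- **KAP**: a kernel which is invariant under a lattice on both sides lives on the diagonal. -/
theorem kap (hrec : Rec G) {C D : Set G} (hC : CO C) (hD : CO D) (hCD : Disjoint C D) :
    κ C D = 0 := by
  have h0 : avk μ sl sr κ C D = 0 :=
    bi hrec (vol_real μ) (ker_avk μ hl hr hκ)
      (fun c d {C D} hC hD => avk_inv μ Θ hsl hsr hL hR c d hC hD) hC hD hCD
  have h1 : innr μ sl κ C D 1 = 0 := by
    refine zero_of_int μ hsr (cont_innr hC hD κ sl μ) (innr_nonneg μ hκ hC hD)
      (fun θ x => ?_) (int_innr μ hl hr hκ hC hD) h0 1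
    have h3 : ∀ (a : G) (E : Set G), T a (x * θ.1.unop) E = T 1 θ.1.unop (T a x E) :=
      fun a E => by rw [T_T]; simp
    show innr μ sl κ C D (x * θ.1.unop) = _
    simp only [innr, h3]
    refine integral_congr_ae (Filter.Eventually.of_forall fun a => ?_)
    exact hR _ θ.2 (hC.T _ _) (hD.T _ _)
  have h2 := zero_of_int μ hsl (cont_F hC hD κ 1) (fun a => hκ.nonneg (hC.T a 1) (hD.T a 1))
    (fun θ x => by
      have h3 : ∀ E : Set G, T (θ.1 * x) 1 E = T θ.1 1 (T x 1 E) := fun E => by
        rw [T_T]; simp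
      show κ (T (θ.1 * x) 1 C) (T (θ.1 * x) 1 D) = _
      rw [h3, h3]
      exact hL θ.1 θ.2 (hC.T _ _) (hD.T _ _)) (int_F μ hl hκ hC hD 1) h1 1
  rw [T_one, T_one] at h2
  exact h2

end kap

end Vale.Agent.P092.H839
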