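import Mathlib

/-!
P092, Team N, [N-K-EXP] (helper839), part 1: families of functions with an expansion
`F k x = ∑ b, d k b * e b x`, `e b` in a fixed class of functions, `∑ b, sup_k |d k b| < ∞`.
-/

set_option linter.all false

open scoped BigOperators Topology
open Filter

namespace Vale.Agent.P092.H839

universe u v

variable {I : Type u} {X : Type v}

/-- `F k = ∑ b, d k b • e b` with `e b ∈ M` and `∑ b, sup_k |d k b| ≤ C` -/
def Ex (M : Set (X → ℂ)) (C : ℝ) (F : I → X → ℂ) : Prop :=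
  ∃ (B : Type) (_ : Countable B) (e : B → X → ℂ) (d : I → B → ℂ) (D : B → ℝ),
    (∀ b, e b ∈ M) ∧ (∀ k b, ‖d k b‖ ≤ D b) ∧ (∀ b, 0 ≤ D b) ∧ Summable D ∧ ∑' b, D b ≤ C ∧
    ∀ k x, HasSum (fun b => d k b * e b x) (F k x)

/-- a class of functions bounded by one, closed under products and conjugation -/
structure Cl (M : Set (X → ℂ)) : Prop where
  one : (fun _ => 1) ∈ M
  mul : ∀ f ∈ M, ∀ g ∈ M, (fun x => f x * g x) ∈ M
  cj : ∀ f ∈ M, (fun x => (starRingEnd ℂ) (f x)) ∈ M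
  le : ∀ f ∈ M, ∀ x, ‖f x‖ ≤ 1

theorem Ex.mono {M : Set (X → ℂ)} {C C' : ℝ} {F : I → X → ℂ} (h : Ex M C F) (hC : C ≤ C') :
    Ex M C' F := by
  obtain ⟨B, hB, e, d, D, h1, h2, h3, h4, h5, h6⟩ := h
  exact ⟨B, hB, e, d, D, h1, h2, h3, h4, h5.trans hC, h6⟩

theorem Ex.congr {M : Set (X → ℂ)} {C : ℝ} {F G : I → X → ℂ} (h : Ex M C F)
    (hFG : ∀ k x, F k x = G k x) : Ex M C G := by
  have : F = G := by
    funext k x
    exact hFG k x
  rw [← this]
  exact h

theorem Ex.subset {M M' : Set (X → ℂ)} {C : ℝ} {F : I → X → ℂ} (h : Ex M C F) (hM : M ⊆ M') :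
    Ex M' C F := by
  obtain ⟨B, hB, e, d, D, h1, h2, h3, h4, h5, h6⟩ := h
  exact ⟨B, hB, e, d, D, fun b => hM (h1 b), h2, h3, h4, h5, h6⟩

theorem Ex.nonneg {M : Set (X → ℂ)} {C : ℝ} {F : I → X → ℂ} (h : Ex M C F) : 0 ≤ C := by
  obtain ⟨B, hB, e, d, D, h1, h2, h3, h4, h5, h6⟩ := h
  exact (tsum_nonneg h3).trans h5

/-- one function of the class, with bounded coefficients -/
theorem Ex.single {M : Set (X → ℂ)} {u : X → ℂ} (hu : u ∈ M) (c : I → ℂ) {C : ℝ} (hC : 0 ≤ C)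
    (hc : ∀ k, ‖c k‖ ≤ C) : Ex M C (fun k x => c k * u x) := by
  refine ⟨Unit, inferInstance, fun _ => u, fun k _ => c k, fun _ => C, fun _ => hu,
    fun k _ => hc k, fun _ => hC, (hasSum_fintype _).summable, by simp, fun k x => ?_⟩
  simpa using hasSum_fintype (fun _ : Unit => c k * u x)

theorem Ex.const {M : Set (X → ℂ)} (hM : Cl M) (c : I → ℂ) {C : ℝ} (hC : 0 ≤ C)
    (hc : ∀ k, ‖c k‖ ≤ C) : Ex M C (fun k (_ : X) => c k) :=
  (Ex.single hM.one c hC hc).congr fun k x => by simp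

theorem Ex.zero {M : Set (X → ℂ)} : Ex M 0 (fun (_ : I) (_ : X) => (0 : ℂ)) := by
  refine ⟨Empty, inferInstance, fun b => b.elim, fun _ b => b.elim, fun b => b.elim,
    fun b => b.elim, fun _ b => b.elim, fun b => b.elim, ?_, ?_, fun k x => ?_⟩
  · exact (hasSum_empty).summable
  · simp
  · exact hasSum_empty

theorem Ex.add {M : Set (X → ℂ)} {C₁ C₂ : ℝ} {F₁ F₂ : I → X → ℂ} (h : Ex M C₁ F₁)
    (h' : Ex M C₂ F₂) : Ex M (C₁ + C₂) (fun k x => F₁ k x + F₂ k x) := by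
  obtain ⟨B, hB, e, d, D, h1, h2, h3, h4, h5, h6⟩ := h
  obtain ⟨B', hB', e', d', D', h1', h2', h3', h4', h5', h6'⟩ := h'
  have key : HasSum (Sum.elim D D') (∑' b, D b + ∑' b, D' b) := by
    refine HasSum.sum ?_ ?_
    · exact h4.hasSum
    · exact h4'.hasSum
  refine ⟨B ⊕ B', inferInstance, Sum.elim e e', fun k => Sum.elim (d k) (d' k), Sum.elim D D',
    ?_, ?_, ?_, key.summable, ?_, fun k x => ?_⟩
  · rintro (b | b)
    · exact h1 b
    · exact h1' b
  · rintro k (b | b)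
    · exact h2 k b
    · exact h2' k b
  · rintro (b | b)
    · exact h3 b
    · exact h3' b
  · rw [key.tsum_eq]
    exact add_le_add h5 h5'
  · refine HasSum.sum ?_ ?_
    · exact h6 k x
    · exact h6' k x

theorem Ex.finset_sum {M : Set (X → ℂ)} {ι : Type*} (s : Finset ι) {C : ι → ℝ}
    {F : ι → I → X → ℂ} (h : ∀ i ∈ s, Ex M (C i) (F i)) :
    Ex M (∑ i ∈ s, C i) (fun k x => ∑ i ∈ s, F i k x) := by
  classical
  induction s using Finset.induction_on with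
  | empty => simpa using Ex.zero
  | insert a s ha ih =>
    have h1 := (h a (Finset.mem_insert_self a s)).add
      (ih fun i hi => h i (Finset.mem_insert_of_mem hi))
    rw [Finset.sum_insert ha]
    refine h1.congr fun k x => ?_
    rw [Finset.sum_insert ha]

theorem Ex.mul {M : Set (X → ℂ)} (hM : Cl M) {C₁ C₂ : ℝ} {F₁ F₂ : I → X → ℂ} (h : Ex M C₁ F₁)
    (h' : Ex M C₂ F₂) : Ex M (C₁ * C₂) (fun k x => F₁ k x * F₂ k x) := by
  have hC₂ := h'.nonneg
  obtain ⟨B, hB, e, d, D, h1, h2, h3, h4, h5, h6⟩ := h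
  obtain ⟨B', hB', e', d', D', h1', h2', h3', h4', h5', h6'⟩ := h'
  have hs : Summable fun p : B × B' => D p.1 * D' p.2 :=
    h4.mul_of_nonneg h4' h3 h3'
  have key : ∑' p : B × B', D p.1 * D' p.2 = (∑' b, D b) * ∑' b, D' b :=
    (h4.tsum_mul_tsum h4' hs).symm
  have hb : ∀ k x, ∀ p : B × B', ‖(d k p.1 * e p.1 x) * (d' k p.2 * e' p.2 x)‖ ≤
      D p.1 * D' p.2 := by
    intro k x p
    rw [norm_mul, norm_mul, norm_mul]
    have a1 := h2 k p.1
    have a2 := h2' k p.2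
    have a3 := hM.le _ (h1 p.1) x
    have a4 := hM.le _ (h1' p.2) x
    have b1 : ‖d k p.1‖ * ‖e p.1 x‖ ≤ D p.1 := by
      calc ‖d k p.1‖ * ‖e p.1 x‖ ≤ D p.1 * 1 := by gcongr; exact h3 _
        _ = D p.1 := mul_one _
    have b2 : ‖d' k p.2‖ * ‖e' p.2 x‖ ≤ D' p.2 := by
      calc ‖d' k p.2‖ * ‖e' p.2 x‖ ≤ D' p.2 * 1 := by gcongr; exact h3' _
        _ = D' p.2 := mul_one _
    exact mul_le_mul b1 b2 (by positivity) (h3 _)
  refine ⟨B × B', inferInstance, fun p x => e p.1 x * e' p.2 x, fun k p => d k p.1 * d' k p.2,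
    fun p => D p.1 * D' p.2, fun p => hM.mul _ (h1 p.1) _ (h1' p.2), fun k p => ?_,
    fun p => mul_nonneg (h3 _) (h3' _), hs, ?_, fun k x => ?_⟩
  · rw [norm_mul]
    exact mul_le_mul (h2 k p.1) (h2' k p.2) (norm_nonneg _) (h3 _)
  · rw [key]
    exact mul_le_mul h5 h5' (tsum_nonneg h3') ((tsum_nonneg h3).trans h5)
  · have s1 : Summable fun p : B × B' => (d k p.1 * e p.1 x) * (d' k p.2 * e' p.2 x) :=
      Summable.of_norm_bounded hs (hb k x)
    have := (h6 k x).mul (h6' k x) s1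
    refine this.congr_fun ?_
    intro p
    ring

theorem Ex.pow {M : Set (X → ℂ)} (hM : Cl M) {C : ℝ} {F : I → X → ℂ} (h : Ex M C F) (n : ℕ) :
    Ex M (C ^ n) (fun k x => F k x ^ n) := by
  induction n with
  | zero =>
    refine (Ex.const hM (fun _ => (1 : ℂ)) zero_le_one (by simp)).mono (by simp) |>.congr ?_
    intro k x
    simp
  | succ n ih =>
    rw [pow_succ]
    exact (ih.mul hM h).congr fun k x => (pow_succ _ _).symm

theorem Ex.star {M : Set (X → ℂ)} (hM : Cl M) {C : ℝ} {F : I → X → ℂ} (h : Ex M C F) :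
    Ex M C (fun k x => (starRingEnd ℂ) (F k x)) := by
  obtain ⟨B, hB, e, d, D, h1, h2, h3, h4, h5, h6⟩ := h
  refine ⟨B, hB, fun b x => (starRingEnd ℂ) (e b x), fun k b => (starRingEnd ℂ) (d k b), D,
    fun b => hM.cj _ (h1 b), fun k b => ?_, h3, h4, h5, fun k x => ?_⟩
  · rw [RCLike.norm_conj]
    exact h2 k b
  · have := (h6 k x).map (starRingEnd ℂ) Complex.continuous_conj
    refine this.congr_fun ?_
    intro b
    simp

theorem Ex.le {M : Set (X → ℂ)} (hM : Cl M) {C : ℝ} {F : I → X → ℂ} (h : Ex M C F) (k : I)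
    (x : X) : ‖F k x‖ ≤ C := by
  obtain ⟨B, hB, e, d, D, h1, h2, h3, h4, h5, h6⟩ := h
  have hb : ∀ b, ‖d k b * e b x‖ ≤ D b := by
    intro b
    rw [norm_mul]
    calc ‖d k b‖ * ‖e b x‖ ≤ D b * 1 := by
          gcongr
          · exact h3 _
          · exact h2 k b
          · exact hM.le _ (h1 b) x
      _ = D b := mul_one _
  calc ‖F k x‖ = ‖∑' b, d k b * e b x‖ := by rw [(h6 k x).tsum_eq]
    _ ≤ ∑' b, D b := tsum_of_norm_bounded h4.hasSum hb
    _ ≤ C := h5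

/-- an absolutely convergent series of expansions -/
theorem Ex.tsum {M : Set (X → ℂ)} (hM : Cl M) {C : ℕ → ℝ} {F : ℕ → I → X → ℂ}
    (h : ∀ n, Ex M (C n) (F n)) (hs : Summable C) :
    Ex M (∑' n, C n) (fun k x => ∑' n, F n k x) := by
  have hC0 : ∀ n, 0 ≤ C n := fun n => (h n).nonneg
  have hle : ∀ n k x, ‖F n k x‖ ≤ C n := fun n k x => (h n).le hM k x
  choose B hB e d D h1 h2 h3 h4 h5 h6 using h
  have hsum : Summable fun p : Σ n, B n => D p.1 p.2 := by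
    rw [summable_sigma_of_nonneg fun p => h3 p.1 p.2]
    exact ⟨fun n => h4 n, Summable.of_nonneg_of_le (fun n => tsum_nonneg (h3 n)) h5 hs⟩
  have hb : ∀ k x, ∀ p : Σ n, B n, ‖d p.1 k p.2 * e p.1 p.2 x‖ ≤ D p.1 p.2 := by
    intro k x p
    rw [norm_mul]
    calc ‖d p.1 k p.2‖ * ‖e p.1 p.2 x‖ ≤ D p.1 p.2 * 1 := by
          gcongr
          · exact h3 _ _
          · exact h2 _ k _
          · exact hM.le _ (h1 _ _) x
      _ = D p.1 p.2 := mul_one _
  refine ⟨Σ n, B n, inferInstance, fun p => e p.1 p.2, fun k p => d p.1 k p.2,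
    fun p => D p.1 p.2, fun p => h1 _ _, fun k p => h2 _ _ _, fun p => h3 _ _, hsum, ?_,
    fun k x => ?_⟩
  · rw [hsum.tsum_sigma' fun n => h4 n]
    exact Summable.tsum_le_tsum h5
      (Summable.of_nonneg_of_le (fun n => tsum_nonneg (h3 n)) h5 hs) hs
  · have s1 : Summable fun p : Σ n, B n => d p.1 k p.2 * e p.1 p.2 x :=
      Summable.of_norm_bounded hsum (hb k x)
    have s2 : HasSum (fun n => F n k x) (∑' p : Σ n, B n, d p.1 k p.2 * e p.1 p.2 x) :=
      s1.hasSum.sigma fun n => h6 n k x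
    have e1 : (fun k x => ∑' n, F n k x) k x = ∑' p : Σ n, B n, d p.1 k p.2 * e p.1 p.2 x :=
      s2.tsum_eq
    rw [e1]
    exact s1.hasSum

/-- the geometric series -/
theorem Ex.inv {M : Set (X → ℂ)} (hM : Cl M) {c : ℝ} {F : I → X → ℂ} (h : Ex M c F)
    (hc : c < 1) : Ex M (1 - c)⁻¹ (fun k x => (1 - F k x)⁻¹) := by
  have hc0 : 0 ≤ c := h.nonneg
  have h1 := Ex.tsum hM (fun n => h.pow hM n) (summable_geometric_of_lt_one hc0 hc)
  rw [tsum_geometric_of_lt_one hc0 hc] at h1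
  refine h1.congr fun k x => ?_
  exact tsum_geometric_of_norm_lt_one ((h.le hM k x).trans_lt hc)

end Vale.Agent.P092.H839
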