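import Vale.Agent.P092.H839.Ex1

/-!
P092, Team N, [N-K-EXP] (helper839), part 2: matrix entries of the projection onto a moving line
`ℂ p_k(x)`, `p_k(x) = a_k + ∑ j, u_j(x) a_(k,j)` with small `a_(k,j)`, have expansions; transfer to
operators.
-/

set_option linter.all false

open scoped BigOperators Topology
open Filter

namespace Vale.Agent.P092.H839

universe u v

section ratio

variable {I : Type u} {X : Type v} {κ J : Type} [Fintype κ] [Fintype J]

/-- the moving vector -/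
def pv (a0 : I → κ → ℂ) (a : I → J → κ → ℂ) (u : J → X → ℂ) (k : I) (x : X) (i : κ) : ℂ :=
  a0 k i + ∑ j, u j x * a k j i

/-- the matrix entries of the projection onto the line of `v` -/
noncomputable def qe (i i' : κ) (v : κ → ℂ) : ℂ :=
  v i * (starRingEnd ℂ) (v i') / ∑ l, v l * (starRingEnd ℂ) (v l)

/-- `p_k` is a small perturbation of `a_k ≠ 0` -/
structure Sm (M : Set (X → ℂ)) (a0 : I → κ → ℂ) (a : I → J → κ → ℂ) (u : J → X → ℂ) : Prop where
  mem : ∀ j, u j ∈ M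
  ne : ∀ k, ∃ i, a0 k i ≠ 0
  sm : ∀ k j i, ∃ i', ‖a k j i‖ ≤ ‖a0 k i'‖ / (5 * Fintype.card J * Fintype.card κ)

/-- the Euclidean norm of `a0 k` -/
noncomputable def nn (a0 : I → κ → ℂ) (k : I) : ℝ := Real.sqrt (∑ i, ‖a0 k i‖ ^ 2)

theorem le_nn (a0 : I → κ → ℂ) (k : I) (i : κ) : ‖a0 k i‖ ≤ nn a0 k := by
  refine Real.le_sqrt_of_sq_le ?_
  exact Finset.single_le_sum (f := fun i => ‖a0 k i‖ ^ 2) (fun i _ => by positivity)
    (Finset.mem_univ i)

theorem nn_pos {a0 : I → κ → ℂ} {k : I} (h : ∃ i, a0 k i ≠ 0) : 0 < nn a0 k := by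
  obtain ⟨i, hi⟩ := h
  exact (norm_pos_iff.2 hi).trans_le (le_nn a0 k i)

theorem nn_sq (a0 : I → κ → ℂ) (k : I) : nn a0 k ^ 2 = ∑ i, ‖a0 k i‖ ^ 2 :=
  Real.sq_sqrt (Finset.sum_nonneg fun i _ => by positivity)

variable {M : Set (X → ℂ)} {a0 : I → κ → ℂ} {a : I → J → κ → ℂ} {u : J → X → ℂ}

/-- normalised constant part -/
noncomputable def b0 (a0 : I → κ → ℂ) (i : κ) (k : I) : ℂ := a0 k i / (nn a0 k : ℂ)

theorem b0_le (h : Sm M a0 a u) (i : κ) (k : I) : ‖b0 a0 i k‖ ≤ 1 := by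
  rw [b0, norm_div, Complex.norm_real, Real.norm_of_nonneg (nn_pos (h.ne k)).le]
  exact (div_le_one (nn_pos (h.ne k))).2 (le_nn a0 k i)

/-- normalised moving part -/
noncomputable def rr (a0 : I → κ → ℂ) (a : I → J → κ → ℂ) (u : J → X → ℂ) (i : κ) (k : I)
    (x : X) : ℂ := ∑ j, a k j i / (nn a0 k : ℂ) * u j x

theorem pv_eq (h : Sm M a0 a u) (k : I) (x : X) (i : κ) :
    pv a0 a u k x i = (nn a0 k : ℂ) * (b0 a0 i k + rr a0 a u i k x) := by
  have h0 : (nn a0 k : ℂ) ≠ 0 := by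
    exact_mod_cast (nn_pos (h.ne k)).ne'
  rw [pv, b0, rr, mul_add, mul_div_cancel₀ _ h0, Finset.mul_sum]
  congr 1
  refine Finset.sum_congr rfl fun j _ => ?_
  field_simp

theorem rr_ex (h : Sm M a0 a u) (i : κ) :
    Ex M (1 / (5 * Fintype.card κ)) (fun k x => rr a0 a u i k x) := by
  have h1 : ∀ j ∈ (Finset.univ : Finset J), Ex M (1 / (5 * Fintype.card J * Fintype.card κ))
      (fun k x => a k j i / (nn a0 k : ℂ) * u j x) := by
    intro j _
    refine Ex.single (h.mem j) (fun k => a k j i / (nn a0 k : ℂ)) (by positivity) fun k => ?_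
    rw [norm_div, Complex.norm_real, Real.norm_of_nonneg (nn_pos (h.ne k)).le,
      div_le_iff₀ (nn_pos (h.ne k))]
    obtain ⟨i', hi'⟩ := h.sm k j i
    refine hi'.trans ?_
    rw [div_mul_eq_mul_div, one_mul]
    exact div_le_div_of_nonneg_right (le_nn a0 k i') (by positivity)
  refine (Ex.finset_sum Finset.univ h1).mono ?_
  rw [Finset.sum_const, nsmul_eq_mul, Finset.card_univ]
  rcases Nat.eq_zero_or_pos (Fintype.card J) with hJ | hJ
  · rw [hJ]
    simp
  rcases Nat.eq_zero_or_pos (Fintype.card κ) with hk | hk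
  · rw [hk]
    simp
  have e1 : (0 : ℝ) < Fintype.card J := by exact_mod_cast hJ
  have e2 : (0 : ℝ) < Fintype.card κ := by exact_mod_cast hk
  refine le_of_eq ?_
  field_simp

theorem card_pos (h : Sm M a0 a u) (k : I) : (1 : ℝ) ≤ Fintype.card κ := by
  obtain ⟨i, hi⟩ := h.ne k
  have : 0 < Fintype.card κ := Fintype.card_pos_iff.2 ⟨i⟩
  exact_mod_cast this

/-- the perturbation of the normalised square norm -/
noncomputable def er (a0 : I → κ → ℂ) (a : I → J → κ → ℂ) (u : J → X → ℂ) (k : I) (x : X) : ℂ :=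
  ∑ i, (b0 a0 i k * (starRingEnd ℂ) (rr a0 a u i k x) +
    (starRingEnd ℂ) (b0 a0 i k) * rr a0 a u i k x +
    rr a0 a u i k x * (starRingEnd ℂ) (rr a0 a u i k x))

theorem er_ex [Nonempty I] (hM : Cl M) (h : Sm M a0 a u) :
    Ex M (11 / 25) (fun k x => er a0 a u k x) := by
  have hk : (1 : ℝ) ≤ Fintype.card κ := card_pos h (Classical.arbitrary I)
  have h1 : ∀ i ∈ (Finset.univ : Finset κ), Ex M (1 * (1 / (5 * Fintype.card κ)) +
      1 * (1 / (5 * Fintype.card κ)) + 1 / (5 * Fintype.card κ) * (1 / (5 * Fintype.card κ)))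
      (fun k x => b0 a0 i k * (starRingEnd ℂ) (rr a0 a u i k x) +
        (starRingEnd ℂ) (b0 a0 i k) * rr a0 a u i k x +
        rr a0 a u i k x * (starRingEnd ℂ) (rr a0 a u i k x)) := by
    intro i _
    have c1 : Ex M 1 (fun k (_ : X) => b0 a0 i k) :=
      Ex.const hM _ zero_le_one fun k => b0_le h i k
    have c2 : Ex M 1 (fun k (_ : X) => (starRingEnd ℂ) (b0 a0 i k)) :=
      Ex.const hM _ zero_le_one fun k => by rw [RCLike.norm_conj]; exact b0_le h i k
    have r1 := rr_ex h i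
    have r2 := r1.star hM
    exact ((c1.mul hM r2).add (c2.mul hM r1)).add (r1.mul hM r2)
  refine (Ex.finset_sum Finset.univ h1).mono ?_
  rw [Finset.sum_const, nsmul_eq_mul, Finset.card_univ]
  have e2 : (0 : ℝ) < Fintype.card κ := by linarith
  have e3 : (Fintype.card κ : ℝ) * (1 * (1 / (5 * Fintype.card κ)) +
      1 * (1 / (5 * Fintype.card κ)) + 1 / (5 * Fintype.card κ) * (1 / (5 * Fintype.card κ))) =
      2 / 5 + 1 / (25 * Fintype.card κ) := by
    field_simp
    ring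
  rw [e3]
  have e4 : (1 : ℝ) / (25 * Fintype.card κ) ≤ 1 / 25 :=
    one_div_le_one_div_of_le (by norm_num) (by linarith)
  linarith

theorem sum_b0 (h : Sm M a0 a u) (k : I) :
    ∑ i, b0 a0 i k * (starRingEnd ℂ) (b0 a0 i k) = 1 := by
  have h0 := nn_pos (h.ne k)
  have h1 : ∀ i, b0 a0 i k * (starRingEnd ℂ) (b0 a0 i k) =
      ((‖a0 k i‖ ^ 2 / nn a0 k ^ 2 : ℝ) : ℂ) := by
    intro i
    rw [Complex.mul_conj, Complex.normSq_eq_norm_sq, b0, norm_div, Complex.norm_real,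
      Real.norm_of_nonneg h0.le, div_pow]
  rw [Finset.sum_congr rfl fun i _ => h1 i, ← Complex.ofReal_sum, ← Finset.sum_div, ← nn_sq,
    div_self (pow_ne_zero 2 h0.ne')]
  norm_num

theorem sum_sq (h : Sm M a0 a u) (k : I) (x : X) :
    ∑ l, pv a0 a u k x l * (starRingEnd ℂ) (pv a0 a u k x l) =
      (nn a0 k : ℂ) ^ 2 * (1 + er a0 a u k x) := by
  have h1 : ∀ l, pv a0 a u k x l * (starRingEnd ℂ) (pv a0 a u k x l) =
      (nn a0 k : ℂ) ^ 2 * (b0 a0 l k * (starRingEnd ℂ) (b0 a0 l k) +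
        (b0 a0 l k * (starRingEnd ℂ) (rr a0 a u l k x) +
          (starRingEnd ℂ) (b0 a0 l k) * rr a0 a u l k x +
          rr a0 a u l k x * (starRingEnd ℂ) (rr a0 a u l k x))) := by
    intro l
    rw [pv_eq h, map_mul, map_add, Complex.conj_ofReal]
    ring
  rw [Finset.sum_congr rfl fun l _ => h1 l, ← Finset.mul_sum, Finset.sum_add_distrib, sum_b0 h, er]

theorem er_le [Nonempty I] (hM : Cl M) (h : Sm M a0 a u) (k : I) (x : X) :
    ‖er a0 a u k x‖ ≤ 11 / 25 := (er_ex hM h).le hM k x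

theorem one_add_er_ne [Nonempty I] (hM : Cl M) (h : Sm M a0 a u) (k : I) (x : X) :
    1 + er a0 a u k x ≠ 0 := by
  intro h0
  have h1 : er a0 a u k x = -1 := by linear_combination h0
  have h2 := er_le hM h k x
  rw [h1, norm_neg, norm_one] at h2
  norm_num at h2

theorem pv_ne [Nonempty I] (hM : Cl M) (h : Sm M a0 a u) (k : I) (x : X) :
    pv a0 a u k x ≠ 0 := by
  intro h0
  have h1 := sum_sq h k x
  have h2 : ∀ l, pv a0 a u k x l = 0 := fun l => congrFun h0 l
  rw [Finset.sum_congr rfl fun l _ => by rw [h2 l, zero_mul]] at h1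
  rw [Finset.sum_const_zero] at h1
  have h3 : (nn a0 k : ℂ) ≠ 0 := by exact_mod_cast (nn_pos (h.ne k)).ne'
  exact mul_ne_zero (pow_ne_zero 2 h3) (one_add_er_ne hM h k x) h1.symm

/-- **the expansion of a matrix entry** -/
theorem qe_ex [Nonempty I] (hM : Cl M) (h : Sm M a0 a u) (i i' : κ) :
    Ex M 4 (fun k x => qe i i' (pv a0 a u k x)) := by
  have hk : (1 : ℝ) ≤ Fintype.card κ := card_pos h (Classical.arbitrary I)
  have r : ∀ i, Ex M (6 / 5) (fun k x => b0 a0 i k + rr a0 a u i k x) := by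
    intro i
    have c1 : Ex M 1 (fun k (_ : X) => b0 a0 i k) :=
      Ex.const hM _ zero_le_one fun k => b0_le h i k
    refine (c1.add (rr_ex h i)).mono ?_
    have e4 : (1 : ℝ) / (5 * Fintype.card κ) ≤ 1 / 5 :=
      one_div_le_one_div_of_le (by norm_num) (by linarith)
    linarith
  have r' := (r i').star hM
  have e1 : Ex M (11 / 25) (fun k x => (-1 : ℂ) * er a0 a u k x) := by
    have c1 : Ex M 1 (fun (k : I) (_ : X) => (-1 : ℂ)) :=
      Ex.const hM _ zero_le_one fun k => by simp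
    exact (c1.mul hM (er_ex hM h)).mono (by norm_num)
  have e2 := e1.inv hM (by norm_num)
  refine (((r i).mul hM r').mul hM e2).mono (by norm_num) |>.congr fun k x => ?_
  have h3 : (nn a0 k : ℂ) ≠ 0 := by exact_mod_cast (nn_pos (h.ne k)).ne'
  have h4 := one_add_er_ne hM h k x
  rw [qe, sum_sq h, pv_eq h, pv_eq h, map_mul, Complex.conj_ofReal]
  have e3 : (1 : ℂ) - -1 * er a0 a u k x = 1 + er a0 a u k x := by ring
  rw [e3, eq_div_iff (mul_ne_zero (pow_ne_zero 2 h3) h4)]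
  field_simp

end ratio

end Vale.Agent.P092.H839
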