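import Vale.Agent.P092.H839.FlipStmt

/-!
helper839: the exchanged triple `(R₁, V, R₂)` of the model and the trace of `V g`.
-/

set_option linter.all false

open scoped InnerProductSpace
open Filter Topology ContinuousLinearMap

namespace Vale.Agent.P092.H839

open Vale.Agent.P092.H160 Vale.Agent.P092.SR

section prr

variable {G₁ G₂ X Y : Type} [Group G₁] [Group G₂]

/-- the tensor product of two representations -/
noncomputable def prr (π₁ : G₁ →* (Ell2 X →L[ℂ] Ell2 X)) (π₂ : G₂ →* (Ell2 Y →L[ℂ] Ell2 Y)) :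
    G₁ × G₂ →* (Ell2 (X × Y) →L[ℂ] Ell2 (X × Y)) where
  toFun p := tens (π₁ p.1) (π₂ p.2)
  map_one' := by
    change tens (π₁ 1) (π₂ 1) = 1
    rw [map_one, map_one, tens_one]
  map_mul' p q := by
    change tens (π₁ (p.1 * q.1)) (π₂ (p.2 * q.2)) = _
    rw [map_mul, map_mul, tens_mul]

theorem regRep_prr {π₁ : G₁ →* (Ell2 X →L[ℂ] Ell2 X)} {π₂ : G₂ →* (Ell2 Y →L[ℂ] Ell2 Y)}
    {ω₁ : Ell2 X} {ω₂ : Ell2 Y} (h₁ : RegRep π₁ ω₁) (h₂ : RegRep π₂ ω₂) :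
    RegRep (prr π₁ π₂) (tv ω₁ ω₂) where
  adj p := by
    rcases p with ⟨g, h⟩
    change adjoint (tens (π₁ g) (π₂ h)) = tens (π₁ g⁻¹) (π₂ h⁻¹)
    rw [adjoint_tens, h₁.adj, h₂.adj]
  norm_one := by rw [norm_tv, h₁.norm_one, h₂.norm_one, one_mul]
  inner_zero p hp := by
    rcases p with ⟨g, h⟩
    change ⟪tv ω₁ ω₂, tens (π₁ g) (π₂ h) (tv ω₁ ω₂)⟫_ℂ = 0
    rw [tens_tv, inner_tv]
    by_cases hg : g = 1
    · have hh : h ≠ 1 := fun hh => hp (by rw [hg, hh]; rfl)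
      rw [h₂.inner_zero h hh, mul_zero]
    · rw [h₁.inner_zero g hg, zero_mul]
  total v hv := by
    have e1 : ∀ (g : G₁) (b : Ell2 Y), ⟪tv (π₁ g ω₁) b, v⟫_ℂ = 0 := by
      intro g b
      have e2 : adjoint (tvr (π₁ g ω₁)) v = 0 := by
        refine h₂.total _ fun h => ?_
        rw [adjoint_inner_right, tvr_apply, ← tens_tv]
        exact hv (g, h)
      rw [← tvr_apply, ← adjoint_inner_right, e2, inner_zero_right]
    have e3 : ∀ (a : Ell2 X) (b : Ell2 Y), ⟪tv a b, v⟫_ℂ = 0 := by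
      intro a b
      have e2 : adjoint (tvl b) v = 0 := by
        refine h₁.total _ fun g => ?_
        rw [adjoint_inner_right, tvl_apply]
        exact e1 g b
      rw [← tvl_apply, ← adjoint_inner_right, e2, inner_zero_right]
    refine eq_zero_of_inner_dl ?_
    rintro ⟨a, b⟩
    rw [← inner_dl, dl_prod]
    exact e3 _ _

/-- Parseval for a regular representation, in squares. -/
theorem regRep_parseval {G E : Type} [Group G] [NormedAddCommGroup E] [InnerProductSpace ℂ E]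
    [CompleteSpace E] {π : G →* (E →L[ℂ] E)} {ω : E} (h : RegRep π ω) (η : E) :
    HasSum (fun p : G => ‖⟪π p ω, η⟫_ℂ‖ ^ 2) (‖η‖ ^ 2) := by
  have h1 := h.hasSum_inner η η
  have h3 := Complex.hasSum_re h1
  have h4 : (⟪η, η⟫_ℂ).re = ‖η‖ ^ 2 := by
    rw [inner_self_eq_norm_sq_to_K]; norm_cast
  rw [h4] at h3
  have h5 : (fun p : G => ‖⟪π p ω, η⟫_ℂ‖ ^ 2) =
      fun p => (⟪η, π p ω⟫_ℂ * ⟪π p ω, η⟫_ℂ).re := by
    funext p
    rw [← inner_conj_symm η, ← Complex.normSq_eq_conj_mul_self, Complex.normSq_eq_norm_sq,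
      Complex.ofReal_re]
  rw [h5]; exact h3

end prr

section two

variable {Γ Γ' Λ : Type} [Group Γ] [Group Γ'] [Group Λ] {α : Γ →* (Ell2 Λ →L[ℂ] Ell2 Λ)}
  {β : Γ' →* (Ell2 Λ →L[ℂ] Ell2 Λ)}

/-- the trace of `V g` vanishes -/
theorem tr0 (hα : Frame α) (g : Γ) (hg : g ≠ 1) :
    ⟪(dl 1 : Ell2 (Λ × Λ)), VV α g (dl 1)⟫_ℂ = 0 := by
  rw [inner_dl]
  change Del (α g) (dl 1) 1 = 0
  rw [Del_dl]
  refine (if_pos (c := ((1 : Λ × Λ).1 = (1 : Λ × Λ).2)) rfl).trans ?_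
  have h := hα.reg.inner_zero g hg
  rw [inner_dl] at h
  exact h

/-- the conjugate frame -/
noncomputable def bf (β : Γ' →* (Ell2 Λ →L[ℂ] Ell2 Λ)) : Γ' →* (Ell2 Λ →L[ℂ] Ell2 Λ) where
  toFun g := bar (β g)
  map_one' := by rw [map_one, bar_one]
  map_mul' g h := by rw [map_mul, bar_mul]

@[simp] theorem bf_apply (g : Γ') : bf β g = bar (β g) := rfl

theorem frame_bf (hβ : Frame β) : Frame (bf β) where
  reg :=
    { adj := fun g => by rw [bf_apply, bf_apply, adjoint_bar, hβ.reg.adj]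
      norm_one := norm_dl 1
      inner_zero := fun g hg => by
        have h := hβ.reg.inner_zero g hg
        rw [inner_dl] at h
        rw [inner_dl, bf_apply, bar_dl, cj_apply, h, map_zero]
      total := fun v hv => by
        have h1 : cj v = 0 := by
          refine hβ.reg.total _ fun g => ?_
          have h2 := hv g
          rw [bf_apply, bar_dl] at h2
          have h3 : ⟪cj (β g (dl 1)), cj (cj v)⟫_ℂ = 0 := by rw [cj_cj]; exact h2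
          rw [inner_cj] at h3
          rw [← inner_conj_symm, h3, map_zero]
        rw [← norm_eq_zero, ← norm_cj, h1, norm_zero] }
  comm g s := by rw [bf_apply]; exact bar_comm_rho hβ g s

theorem bar_JJ (x : Ell2 Λ →L[ℂ] Ell2 Λ) : bar (JJ x) = JJ (bar x) := by
  rw [JJ, JJ, bar_mul, bar_mul, bar_rei]

theorem bar_lam (t : Λ) : bar (lam t : Ell2 Λ →L[ℂ] Ell2 Λ) = lam t := bar_rei _

theorem rei_eJ_tv (c : Λ) (w : Ell2 Λ) :
    rei (eJ Λ) (tv (dl c) w) = tv (dl c⁻¹) (lam c⁻¹ w) := by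
  have h : (rei (eJ Λ) : Ell2 (Λ × Λ) →L[ℂ] Ell2 (Λ × Λ)) ∘L tvr (dl c) =
      tvr (dl c⁻¹) ∘L lam c⁻¹ := by
    apply op_ext
    intro b
    rw [comp_apply, comp_apply, tvr_apply, tvr_apply, lam_dl, ← dl_prod, ← dl_prod, rei_dl]
    rfl
  exact congrArg (fun T : Ell2 Λ →L[ℂ] Ell2 (Λ × Λ) => T w) h

/-- the flip conjugates the second leg -/
theorem CJ_tens {y : Ell2 Λ →L[ℂ] Ell2 Λ} (hy : ∀ t, y * lam t = lam t * y) :
    CJ (tens (1 : Ell2 Λ →L[ℂ] Ell2 Λ) y) = tens 1 (bar y) := by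
  have hy' : ∀ t, bar y * lam t = lam t * bar y := by
    intro t
    rw [← bar_lam t, ← bar_mul, hy t, bar_mul]
  rw [CJ, bar_tens, bar_one]
  apply op_ext
  rintro ⟨a, b⟩
  rw [mul_ap, mul_ap, rei_dl, tens_dl, tens_dl]
  change rei (eJ Λ) (tv (dl a⁻¹) (bar y (dl (a⁻¹ * b)))) = tv (dl a) (bar y (dl b))
  have h1 : bar y (dl (a⁻¹ * b)) = lam a⁻¹ (bar y (dl b)) := by
    rw [← lam_dl, ← mul_ap, hy', mul_ap]
  rw [h1, rei_eJ_tv, inv_inv]
  congr 1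
  rw [← mul_ap]
  have h2 : (lam a : Ell2 Λ →L[ℂ] Ell2 Λ) * lam a⁻¹ = 1 := by
    apply op_ext
    intro c
    rw [mul_ap, lam_dl, lam_dl, mul_inv_cancel_left]; rfl
  rw [h2]; rfl

theorem Jf_inner (u v : Ell2 (Λ × Λ)) : ⟪Jf u, Jf v⟫_ℂ = ⟪v, u⟫_ℂ := by
  rw [Jf, Jf, inner_rei, inner_cj]

theorem norm_Jf (u : Ell2 (Λ × Λ)) : ‖Jf u‖ = ‖u‖ := by rw [Jf, norm_rei, norm_cj]

theorem Jf_one : Jf (dl 1 : Ell2 (Λ × Λ)) = dl 1 := by
  rw [Jf, cj_dl, rei_dl]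
  congr 1
  change ((1 : Λ)⁻¹, (1 : Λ)⁻¹ * 1) = 1
  rw [inv_one, one_mul]; rfl

theorem Jf_VR (hβ : Frame β) (g : Γ) (h : Γ') :
    Jf (VV α g (RR₂ β h (dl 1))) = prr (Ja α) (Ja (bf β)) (g, h) (tv (dl 1) (dl 1)) := by
  rw [Jf_op, Jf_op, Jf_one]
  change CJ (Del (α g)) (CJ (tens 1 (JJ (β h))) (dl 1)) =
    tens (JJ (α g)) (JJ (bar (β h))) (tv (dl 1) (dl 1))
  rw [CJ_Del, CJ_tens (fun t => JJ_cmm (fun s => hβ.comm h s) t), bar_JJ, ← mul_ap, ← tens_mul,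
    mul_one, one_mul, ← dl_prod]
  rfl

/-- the vectors `V g R₂ h δ` form an orthonormal basis (Parseval) -/
theorem hasSum_VR (hα : Frame α) (hβ : Frame β) (η : Ell2 (Λ × Λ)) :
    HasSum (fun p : Γ × Γ' => ‖⟪VV α p.1 (RR₂ β p.2 (dl 1)), η⟫_ℂ‖ ^ 2) (‖η‖ ^ 2) := by
  have h1 := regRep_parseval (regRep_prr (regRep_Ja hα) (regRep_Ja (frame_bf hβ))) (Jf η)
  rw [norm_Jf] at h1
  have h2 : (fun p : Γ × Γ' => ‖⟪VV α p.1 (RR₂ β p.2 (dl 1)), η⟫_ℂ‖ ^ 2) =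
      fun p : Γ × Γ' => ‖⟪prr (Ja α) (Ja (bf β)) p (tv (dl 1) (dl 1)), Jf η⟫_ℂ‖ ^ 2 := by
    funext p
    rcases p with ⟨g, h⟩
    rw [← Jf_VR hβ, Jf_inner, norm_inner_symm]
  rw [h2]; exact h1

/-- **the exchanged triple** -/
theorem tri2 (hα : Frame α) : Tri (RR₁ α) (VV α) (RR₂ α)
    (fun _ : Unit => (dl 1 : Ell2 (Λ × Λ))) where
  adjV := adj_RR₁ hα
  adj₁ := adj_VV hα
  adj₂ := adj_RR₂ hα
  comm₁ g h := (comm_VV₁ hα h g).symm
  comm₂ := comm_RR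
  comm₁₂ := comm_VV₂ hα
  ne := ⟨(), by rw [← norm_ne_zero_iff, norm_dl]; norm_num⟩
  frame := by
    intro η
    rw [← (Equiv.punitProd (Γ × Γ)).symm.hasSum_iff]
    exact hasSum_VR hα hα η

end two

end Vale.Agent.P092.H839
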